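import Mathlib

/-!
Uniqueness and existence of smooth extensions by density: smooth forms on an open part of a normed
space that agree on a dense part agree, closedness and naturality pass to the closure, local smooth
extensions glue, and the complements of the usual thin sets are dense.
-/

noncomputable section

namespace Vale.Agent.P273.H591

open Set Filter
open scoped Topology ContDiff

section Top

variable {A B : Type*} [TopologicalSpace A] [TopologicalSpace B]

/-- `D` is dense in the open set `U`: every nonempty open part of `U` meets `D`. -/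
theorem subset_closure_iff {U D : Set A} :
    U ⊆ closure D ↔ ∀ p ∈ U, ∀ N ∈ 𝓝 p, (N ∩ D).Nonempty := by
  simp only [subset_def, mem_closure_iff_nhds]

theorem subset_closure_inter {U N D : Set A} (hN : IsOpen N) (h : U ⊆ closure D) :
    U ∩ N ⊆ closure (N ∩ D) := by
  rintro p ⟨hp, hpN⟩
  refine mem_closure_iff_nhds.2 fun W hW => ?_
  obtain ⟨q, hq, hqD⟩ := mem_closure_iff_nhds.1 (h hp) (W ∩ N) (inter_mem hW (hN.mem_nhds hpN))
  exact ⟨q, hq.1, hq.2, hqD⟩

/-- The intersection of an open dense part and a dense part is dense. -/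
theorem subset_closure_inter_of_isOpen {U D E : Set A} (hD : IsOpen D) (hDU : U ⊆ closure D)
    (hU : IsOpen U) (h : U ⊆ closure E) : U ⊆ closure (D ∩ E) := by
  intro p hp
  refine mem_closure_iff_nhds.2 fun W hW => ?_
  obtain ⟨V, hVW, hVo, hpV⟩ := mem_nhds_iff.1 hW
  obtain ⟨q, ⟨hqV, hqU⟩, hqD⟩ := mem_closure_iff_nhds.1 (hDU hp) (V ∩ U)
    ((hVo.inter hU).mem_nhds ⟨hpV, hp⟩)
  obtain ⟨r, ⟨hrV, hrD⟩, hrE⟩ := mem_closure_iff_nhds.1 (h hqU) (V ∩ D)
    ((hVo.inter hD).mem_nhds ⟨hqV, hqD⟩)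
  exact ⟨r, hVW hrV, hrD, hrE⟩

/-- Two continuous maps on `U` that agree on a part `D` whose closure contains `U` agree on `U`. -/
theorem eqOn_of_dense [T2Space B] {f g : A → B} {U D : Set A} (hU : IsOpen U)
    (hf : ContinuousOn f U) (hg : ContinuousOn g U) (hD : U ⊆ closure D)
    (h : EqOn f g (U ∩ D)) : EqOn f g U :=
  h.of_subset_closure hf hg inter_subset_left
    ((subset_inter subset_rfl subset_rfl).trans (subset_closure_inter hU hD))

/-- The pull-back of a dense open part under an open continuous map is dense. -/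
theorem preimage_dense {f : A → B} {U : Set A} {D : Set B}
    (hf : ∀ p ∈ U, 𝓝 (f p) ≤ map f (𝓝 p)) (h : ∀ p ∈ U, f p ∈ closure D) :
    U ⊆ closure (f ⁻¹' D) := by
  intro p hp
  refine mem_closure_iff_nhds.2 fun W hW => ?_
  have : f '' W ∈ 𝓝 (f p) := hf p hp (mem_map.2 (mem_of_superset hW (subset_preimage_image f W)))
  obtain ⟨_, ⟨q, hq, rfl⟩, hqD⟩ := mem_closure_iff_nhds.1 (h p hp) _ this
  exact ⟨q, hq, hqD⟩

end Top

section Ext

variable {A B : Type*} [NormedAddCommGroup A] [NormedSpace ℝ A] [NormedAddCommGroup B]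
  [NormedSpace ℝ B]

/-- Local smooth extensions glue: if the map `f` on the dense part `O` of the open set `U` has a
`C^n` extension near every point of `U`, then it has one and only one continuous extension to `U`,
and this one is `C^n`. -/
theorem extend {n : WithTop ℕ∞} {O U : Set A} {f : A → B} (hU : IsOpen U) (hO : U ⊆ closure O)
    (h : ∀ p ∈ U, ∃ N ∈ 𝓝 p, ∃ g : A → B, ContDiffOn ℝ n g N ∧ EqOn g f (N ∩ O)) :
    ContDiffOn ℝ n (extendFrom O f) U ∧ EqOn (extendFrom O f) f (U ∩ O) ∧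
      ∀ G : A → B, ContinuousOn G U → EqOn G f (U ∩ O) → EqOn G (extendFrom O f) U := by
  have key : ∀ p ∈ U, ∀ N : Set A, IsOpen N → p ∈ N → ∀ g : A → B, ContinuousOn g N →
      EqOn g f (N ∩ O) → extendFrom O f p = g p := by
    intro p hp N hN hpN g hg he
    refine extendFrom_eq (hO hp) ?_
    have h1 : Tendsto g (𝓝[O] p) (𝓝 (g p)) :=
      ((hg.continuousAt (hN.mem_nhds hpN)).tendsto).mono_left nhdsWithin_le_nhds
    refine h1.congr' ?_
    filter_upwards [mem_nhdsWithin_of_mem_nhds (hN.mem_nhds hpN), self_mem_nhdsWithin] with q hq hqO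
    exact he ⟨hq, hqO⟩
  have loc : ∀ p ∈ U, ∃ N : Set A, IsOpen N ∧ p ∈ N ∧ N ⊆ U ∧ ∃ g : A → B, ContDiffOn ℝ n g N ∧
      EqOn g f (N ∩ O) ∧ EqOn (extendFrom O f) g N := by
    intro p hp
    obtain ⟨N, hN, g, hg, he⟩ := h p hp
    obtain ⟨V, hV, hVo, hpV⟩ := mem_nhds_iff.1 (inter_mem hN (hU.mem_nhds hp))
    have he' : EqOn g f (V ∩ O) := fun q hq => he ⟨(hV hq.1).1, hq.2⟩
    have hg' : ContDiffOn ℝ n g V := hg.mono fun q hq => (hV hq).1
    exact ⟨V, hVo, hpV, fun q hq => (hV hq).2, g, hg', he',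
      fun q hq => key q (hV hq).2 V hVo hq g hg'.continuousOn he'⟩
  refine ⟨fun p hp => ?_, fun p hp => ?_, fun G hG he p hp => ?_⟩
  · obtain ⟨N, hN, hpN, -, g, hg, -, he⟩ := loc p hp
    have h1 : ContDiffAt ℝ n g p := hg.contDiffAt (hN.mem_nhds hpN)
    exact (h1.congr_of_eventuallyEq (eventuallyEq_of_mem (hN.mem_nhds hpN) he)).contDiffWithinAt
  · obtain ⟨N, hN, hpN, -, g, hg, h1, he⟩ := loc p hp.1
    rw [he hpN, h1 ⟨hpN, hp.2⟩]
  · exact (key p hp U hU hp G hG he).symm

/-- The same with a chosen extension. -/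
theorem exists_extension {n : WithTop ℕ∞} {O U : Set A} {f : A → B} (hU : IsOpen U)
    (hO : U ⊆ closure O)
    (h : ∀ p ∈ U, ∃ N ∈ 𝓝 p, ∃ g : A → B, ContDiffOn ℝ n g N ∧ EqOn g f (N ∩ O)) :
    ∃ G : A → B, ContDiffOn ℝ n G U ∧ EqOn G f (U ∩ O) ∧
      ∀ G' : A → B, ContinuousOn G' U → EqOn G' f (U ∩ O) → EqOn G' G U := by
  obtain ⟨h1, h2, h3⟩ := extend hU hO h
  exact ⟨_, h1, h2, h3⟩

end Ext

section Forms

variable {A A' B : Type*} [NormedAddCommGroup A] [NormedSpace ℝ A] [NormedAddCommGroup A']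
  [NormedSpace ℝ A'] [NormedAddCommGroup B] [NormedSpace ℝ B] {k : ℕ}

theorem continuousOn_extDeriv {F : A → A [⋀^Fin k]→L[ℝ] B} {U : Set A} (hU : IsOpen U)
    (hF : ContDiffOn ℝ 1 F U) : ContinuousOn (extDeriv F) U := by
  have h1 : ContinuousOn (fderiv ℝ F) U := hF.continuousOn_fderiv_of_isOpen hU le_rfl
  exact (ContinuousAlternatingMap.alternatizeUncurryFinCLM ℝ A B).continuous.comp_continuousOn h1

/-- Closedness passes to the closure. -/
theorem extDeriv_eq_zero_of_dense {F : A → A [⋀^Fin k]→L[ℝ] B} {U D : Set A} (hU : IsOpen U)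
    (hF : ContDiffOn ℝ 1 F U) (hD : U ⊆ closure D) (h : ∀ p ∈ U ∩ D, extDeriv F p = 0) :
    ∀ p ∈ U, extDeriv F p = 0 :=
  eqOn_of_dense (g := fun _ => 0) hU (continuousOn_extDeriv hU hF) continuousOn_const hD h

/-- The pull-back of a continuous form under a `C^1` map is continuous. -/
theorem continuousOn_pullback {F : A' → A' [⋀^Fin k]→L[ℝ] B} {V : Set A'} {U : Set A}
    {φ : A → A'} (hU : IsOpen U) (hF : ContinuousOn F V) (hφ : ContDiffOn ℝ 1 φ U)
    (hm : MapsTo φ U V) :
    ContinuousOn (fun p => (F (φ p)).compContinuousLinearMap (fderiv ℝ φ p)) U := by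
  have h1 : ContinuousOn (fun p => F (φ p)) U := hF.comp hφ.continuousOn hm
  have h2 : ContinuousOn (fderiv ℝ φ) U := hφ.continuousOn_fderiv_of_isOpen hU le_rfl
  intro p hp
  have h3 := (ContinuousAlternatingMap.hasStrictFDerivAt_compContinuousLinearMap (𝕜 := ℝ)
    (F (φ p), fderiv ℝ φ p)).continuousAt
  exact ContinuousAt.comp_continuousWithinAt (f := fun q => (F (φ q), fderiv ℝ φ q))
    (g := fun fg : (A' [⋀^Fin k]→L[ℝ] B) × (A →L[ℝ] A') => fg.1.compContinuousLinearMap fg.2)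
    h3 ((h1 p hp).prodMk (h2 p hp))

/-- Naturality passes to the closure. -/
theorem pullback_of_dense {F : A → A [⋀^Fin k]→L[ℝ] B} {F' : A' → A' [⋀^Fin k]→L[ℝ] B}
    {V : Set A'} {U D : Set A} {φ : A → A'} (hU : IsOpen U) (hF : ContinuousOn F U)
    (hF' : ContinuousOn F' V) (hφ : ContDiffOn ℝ 1 φ U) (hm : MapsTo φ U V)
    (hD : U ⊆ closure D)
    (h : ∀ p ∈ U ∩ D, F p = (F' (φ p)).compContinuousLinearMap (fderiv ℝ φ p)) :
    ∀ p ∈ U, F p = (F' (φ p)).compContinuousLinearMap (fderiv ℝ φ p) :=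
  eqOn_of_dense hU hF (continuousOn_pullback hU hF' hφ hm) hD h

end Forms

section Thin

/-- The complement of the zero set of a nonzero analytic function is dense. -/
theorem dense_ne_zero {𝕜 A B : Type*} [NontriviallyNormedField 𝕜] [NormedAddCommGroup A]
    [NormedSpace 𝕜 A] [NormedAddCommGroup B] [NormedSpace 𝕜 B] {g : A → B} {U : Set A}
    (hU : IsPreconnected U) (hg : AnalyticOnNhd 𝕜 g U) {p₀ : A} (hp₀ : p₀ ∈ U) (h₀ : g p₀ ≠ 0) :
    U ⊆ closure {p | g p ≠ 0} := by
  intro p hp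
  by_contra hc
  have h1 : {p | g p ≠ 0}ᶜ ∈ 𝓝 p := by
    have := isClosed_closure.isOpen_compl.mem_nhds (show p ∈ (closure {p | g p ≠ 0})ᶜ from hc)
    exact mem_of_superset this (compl_subset_compl.2 subset_closure)
  have h2 : g =ᶠ[𝓝 p] 0 := by
    filter_upwards [h1] with q hq
    by_contra hne
    exact hq hne
  exact h₀ (hg.eqOn_zero_of_preconnected_of_eventuallyEq_zero hU hp h2 hp₀)

/-- The complement of a coordinate hyperplane is dense. -/
theorem dense_coord_ne {ι : Type*} [Finite ι] (i : ι) (c : ℂ) :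
    Dense {b : ι → ℂ | b i ≠ c} := by
  have : {b : ι → ℂ | b i ≠ c} = (fun b : ι → ℂ => b i) ⁻¹' {c}ᶜ := rfl
  rw [this]
  exact (dense_compl_singleton c).preimage (isOpenMap_eval i)

/-- The complement of a diagonal is dense. -/
theorem dense_coord_ne_coord {ι : Type*} [Fintype ι] {i j : ι} (h : i ≠ j) :
    Dense {b : ι → ℂ | b i ≠ b j} := by
  intro p
  have h1 : (univ : Set (ι → ℂ)) ⊆ closure {b | b i - b j ≠ 0} := by
    classical
    refine dense_ne_zero (𝕜 := ℂ) (g := fun b : ι → ℂ => b i - b j) isPreconnected_univ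
      (fun b _ => ?_) (mem_univ (Pi.single i 1)) ?_
    · exact ((ContinuousLinearMap.proj i : (ι → ℂ) →L[ℂ] ℂ).analyticAt b).sub
        ((ContinuousLinearMap.proj j : (ι → ℂ) →L[ℂ] ℂ).analyticAt b)
    · simp [h.symm]
  have h2 := h1 (mem_univ p)
  simpa [sub_ne_zero] using h2

/-- A finite intersection of open dense parts is dense. -/
theorem dense_iInter_of_finite {A ι : Type*} [TopologicalSpace A] [Finite ι] {D : ι → Set A}
    {U : Set A} (hU : IsOpen U) (ho : ∀ i, IsOpen (D i)) (h : ∀ i, U ⊆ closure (D i)) :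
    U ⊆ closure (⋂ i, D i) := by
  classical
  cases nonempty_fintype ι
  have key : ∀ s : Finset ι, U ⊆ closure (⋂ i ∈ s, D i) ∧ IsOpen (⋂ i ∈ s, D i) := by
    intro s
    induction s using Finset.induction_on with
    | empty => simp
    | insert a s ha ih =>
      have h1 : (⋂ i ∈ insert a s, D i) = D a ∩ ⋂ i ∈ s, D i := by
        simp [Finset.mem_insert, iInter_or, iInter_inter_distrib]
      rw [h1]
      exact ⟨subset_closure_inter_of_isOpen (ho a) (h a) hU ih.1, (ho a).inter ih.2⟩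
  have := (key Finset.univ).1
  simpa using this

end Thin

end Vale.Agent.P273.H591

end
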