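import Vale.Agent.P273.H591.Step
import Vale.Agent.P273.H469.NodeInst
import Vale.Agent.P273.H469.Sec
import Vale.Agent.P273.H949.QNode

/-!
One step of the insertion of projective lines at the nodes of the necks, at the position of a
label, together with the stability of the fibres.
-/

noncomputable section

namespace Vale.Agent.P273.H591

open Set Filter Topology H183 H837 H395 H948 H469

variable {V E K L : Type} {m m' : ℕ} {X₀ : Surf m} {P : L → (Fin m → ℂ) → X₀.X}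

/-- No fibre has a holomorphic vector field that vanishes at all labels. -/
def Stb (σ : State X₀ P ∅) : Prop :=
  ∀ b ∈ σ.F.B, H949.NoFld σ.F.S b {p | ∃ j, σ.s j b = p}

variable {σ : State X₀ P ∅}
    {U : Set (Fin m' → ℂ)} {φ : (Fin m' → ℂ) → Fin m → ℂ} {h : E × Bool → V}
    {z : E × Bool → (Fin m' → ℂ) → OnePoint ℂ} {g : V → OnePoint ℂ → (Fin m' → ℂ) → σ.F.S.X}
    {eK : K → E} {at' : K → Set L} {vL : L → V} {zL : L → (Fin m' → ℂ) → OnePoint ℂ}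
    {Uc : K → Set σ.F.S.X} {u v : K → σ.F.S.X → ℂ} {t : K → (Fin m → ℂ) → ℂ}
    {uf vf : K → L → (Fin m → ℂ) → ℂ}

namespace QS

/-- The data of the move M3 at the position of the label `j` of the node `k`. -/
def data (Q : QS σ U φ h z g eK at' vL zL Uc u v t uf vf) {k : K} {j : L} (hj : j ∈ at' k) :
    NodeData σ.F.S where
  U := Uc k
  u := u k
  v := v k
  t := t k
  τ₀ := uf k j
  τ₁ := vf k j
  mod := Q.model k
  an₀ _ _ := Q.an_uf hj (σ.F.mem _)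
  an₁ _ _ := Q.an_vf hj (σ.F.mem _)
  fac x _ := by
    filter_upwards [σ.F.openB.mem_nhds (σ.F.mem x)] with b hb
    exact Q.t_eq hj hb
  cl := Q.centre_closed hj

open Classical in
/-- **One step**, at the position of the label `j₀` of the last node of the neck `k`. -/
theorem next (hU : IsOpen U) (hne : U.Nonempty)
    (hφ : ∀ b ∈ U, AnalyticAt ℂ φ b) (Q : QS σ U φ h z g eK at' vL zL Uc u v t uf vf)
    (k : K) (j₀ : L) (hj₀ : j₀ ∈ at' k)
    (hZ : ∀ b ∈ σ.F.B, uf k j₀ b = 0 → vf k j₀ b = 0 → (∀ j, X₀.SmoothAt (P j b)) →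
      ¬ ∀ i j, P i b = P j b → i = j)
    (mu : L → (Fin m → ℂ) → ℂ) (hmu : ∀ j ∈ at' k, ∀ b ∈ σ.F.B, AnalyticAt ℂ (mu j) b ∧
      uf k j b = uf k j₀ b * mu j b ∧ mu j b * vf k j b = vf k j₀ b)
    (h1 : ∀ b ∈ σ.F.B, mu j₀ b = 1)
    {ε : ℝ} (hε : 0 < ε) (sm : Set L) (hsm : ∀ j ∈ sm, j ∈ at' k ∧ (∀ b ∈ σ.F.B, ‖mu j b‖ < ε) ∧
      ∀ b ∈ U, mu j (φ b) = 0)
    (hlg : ∀ j ∈ at' k, j ∉ sm → ∀ b ∈ σ.F.B, ε < ‖mu j b‖) :
    ∃ (σ' : State X₀ P ∅) (_ : σ'.F.B = σ.F.B)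
      (g' : Option V → OnePoint ℂ → (Fin m' → ℂ) → σ'.F.S.X) (Uc' : K → Set σ'.F.S.X)
      (u' v' : K → σ'.F.S.X → ℂ) (t' : K → (Fin m → ℂ) → ℂ),
      QS σ' U φ (hI h (eK k)) (zI z (eK k)) g'
        (fun k' => if k' = k then none else some (eK k'))
        (fun k' => if k' = k then sm else at' k')
        (fun j => if j ∈ at' k then none else some (vL j))
        (fun j => if j ∈ at' k then fun b => ((mu j (φ b) : ℂ) : OnePoint ℂ) else zL j)
        Uc' u' v' t' (fun k' => if k' = k then mu else uf k') vf ∧ (Stb σ → Stb σ') := by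
  have hτ : ∀ b ∈ U, uf k j₀ (φ b) = 0 ∧ vf k j₀ (φ b) = 0 := by
    intro b hb
    obtain ⟨-, h3, h4⟩ := Q.inU k j₀ hj₀ _ (Q.mem b hb)
    obtain ⟨-, h6, h7⟩ := Q.node k b hb
    rw [Q.labn k j₀ hj₀ b hb] at h3 h4
    exact ⟨h3.symm.trans h6, h4.symm.trans h7⟩
  obtain ⟨s', hsec, hrs, hZ', hy, g', Uc', u', v', t', hQ⟩ :=
    Q.stepM hU hne hφ k (Q.data hj₀).nodeMod (Q.data hj₀).fib hτ hZ mu hmu hε sm hsm hlg
  refine ⟨σ.mod (Q.data hj₀).modif (Q.data hj₀).fib s' hsec hrs ∅ (fun _ hj => hj.elim)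
    (fun _ hj => hj.elim) hZ', rfl, g', Uc', u', v', t', hQ, fun hst b hb => ?_⟩
  have hb : b ∈ σ.F.B := hb
  refine H949.node_inh (D := Q.data hj₀) ?_ ?_ (hst b hb)
  · rintro p ⟨j, rfl⟩
    exact ⟨s' j b, ⟨j, rfl⟩, hrs j b hb⟩
  · rintro x hx rfl
    refine ⟨j₀, ?_⟩
    obtain ⟨y, hy1, hy2, hy3⟩ := hy j₀ hj₀ _ hb
    change s' j₀ (σ.F.S.π x) = _
    rw [hy1]
    refine congrArg (Q.data hj₀).modif.ιN ((Q.data hj₀).nodeMod.ext ?_ ?_)
    · obtain ⟨hx1, hx2, hx3, hx4, hx5⟩ := hx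
      obtain ⟨e1, e2, e3⟩ := Q.inU k j₀ hj₀ _ hb
      change (Q.data hj₀).modif.ρ y = x
      rw [hy2]
      refine (Q.model k).inj e1 hx1 ?_
      simp only [Emap]
      rw [(σ.sec j₀ _ hb).1, e2, e3]
      change (σ.F.S.π x, uf k j₀ (σ.F.S.π x), vf k j₀ (σ.F.S.π x)) = _
      rw [show uf k j₀ (σ.F.S.π x) = 0 from hx4, show vf k j₀ (σ.F.S.π x) = 0 from hx5,
        show u k x = 0 from hx2, show v k x = 0 from hx3]
    · rw [hy3, h1 _ hb]
      rfl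

end QS

end Vale.Agent.P273.H591

end
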