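import Vale.Agent.P273.H395.Norm
import Vale.Agent.P273.H948.PFam
import Vale.Agent.P273.H837.Proj

/-!
Normalization data of a family under a modification of its total space, outside the centre and on
the centre of the modification, and under adding a marked point.
-/

noncomputable section

namespace Vale.Agent.P273.H591

open Set Sum Filter H183 H837 H395 H948 Topology
open scoped Topology

variable {L V E J : Type} {m m' : ℕ}

/-- The family with total space `S`, base `B` and marked points `s`. -/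
def fam (S : Surf m) (B : Set (Fin m → ℂ)) (s : L → (Fin m → ℂ) → S.X) : Fam L m where
  B := B
  X := S.X
  π := S.π
  hol f p := S.hol p f
  s := s

variable {S N' : Surf m} {B : Set (Fin m → ℂ)} {s : L → (Fin m → ℂ) → S.X}
  {U : Set (Fin m' → ℂ)} {φ : (Fin m' → ℂ) → Fin m → ℂ}
  {h : (E × Bool) ⊕ L → V} {z : (E × Bool) ⊕ L → (Fin m' → ℂ) → OnePoint ℂ}
  {g : V → OnePoint ℂ → (Fin m' → ℂ) → S.X}

theorem contAt (hU : IsOpen U) {X : Type*} [TopologicalSpace X]
    {f : OnePoint ℂ × (Fin m' → ℂ) → X} (hf : ContinuousOn f (univ ×ˢ U)) {w : OnePoint ℂ}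
    {b : Fin m' → ℂ} (hb : b ∈ U) : ContinuousAt f (w, b) :=
  (hf (w, b) ⟨mem_univ _, hb⟩).continuousAt ((isOpen_univ.prod hU).mem_nhds ⟨mem_univ _, hb⟩)

/-- Holomorphy depends only on the germ. -/
theorem Hol1.congr {f f' : OnePoint ℂ → (Fin m' → ℂ) → ℂ} {w : OnePoint ℂ} {b : Fin m' → ℂ}
    (hf : Hol1 f w b) (e : ∀ᶠ u : OnePoint ℂ × (Fin m' → ℂ) in 𝓝 (w, b), f u.1 u.2 = f' u.1 u.2) :
    Hol1 f' w b := by
  refine ⟨fun x hx => ?_, fun hx => ?_⟩
  · subst hx
    refine (hf.1 x rfl).congr ?_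
    have hc : Tendsto (fun u : ℂ × (Fin m' → ℂ) => ((u.1 : OnePoint ℂ), u.2)) (𝓝 (x, b))
        (𝓝 ((x : OnePoint ℂ), b)) :=
      (OnePoint.continuous_coe.continuousAt.comp continuousAt_fst).prodMk continuousAt_snd
    exact hc.eventually e
  · subst hx
    refine (hf.2 rfl).congr ?_
    have hc : Tendsto (fun u : ℂ × (Fin m' → ℂ) => (inf u.1, u.2)) (𝓝 (0, b))
        (𝓝 (OnePoint.infty, b)) := by
      have h1 : ContinuousAt (fun u : ℂ × (Fin m' → ℂ) => (inf u.1, u.2)) (0, b) :=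
        (H837.continuous_inf.continuousAt.comp continuousAt_fst).prodMk continuousAt_snd
      have h2 := h1.tendsto
      simpa only [H837.inf_zero] using h2
    exact hc.eventually e

/-- **Adding a marked point**: the new mark is the point with coordinate `w₀ b` of the component
`v₀`. -/
theorem norm_mark {C : Fam L m} {g : V → OnePoint ℂ → (Fin m' → ℂ) → C.X} (hN : Norm C U φ h z g)
    (β : (Fin m → ℂ) → C.X) (v₀ : V) (w₀ : (Fin m' → ℂ) → OnePoint ℂ)
    (hβ : ∀ b ∈ U, β (φ b) = g v₀ (w₀ b) b) :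
    Norm ({ C with s := fun x : Option L => x.elim β C.s } : Fam (Option L) m) U φ
      (Sum.elim (fun y => h (inl y)) fun x : Option L => x.elim v₀ fun x => h (inr x))
      (Sum.elim (fun y => z (inl y)) fun x : Option L => x.elim w₀ fun x => z (inr x)) g where
  an := hN.an
  mem := hN.mem
  cont := hN.cont
  proj := hN.proj
  onto := hN.onto
  ident := hN.ident
  hol := hN.hol
  mark b hb x := by
    cases x with
    | none => exact hβ b hb
    | some x => exact hN.mark b hb x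

/-- **Outside the centre** of a modification the normalization lifts. -/
theorem norm_off (hU : IsOpen U) (M : Modif S N') (hF : M.Fib) (hN : Norm (fam S B s) U φ h z g)
    (hoff : ∀ b ∈ U, ∀ x ∈ M.Z, S.π x ≠ φ b) :
    Norm (fam M.T B fun x b => hF.lift (s x b)) U φ h z fun v w b => hF.lift (g v w b) := by
  have hZ : ∀ b ∈ U, ∀ v w, g v w b ∉ M.Z := fun b hb v w hz => hoff b hb _ hz (hN.proj b hb v w)
  refine ⟨hN.an, hN.mem, fun v => ?_, fun b hb v w => ?_, fun b hb p hp => ?_,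
    fun b hb v w v' w' => ?_, fun b hb v w f hf => ?_, fun b hb x => ?_⟩
  · rintro ⟨w, b⟩ ⟨-, hb⟩
    refine ContinuousAt.continuousWithinAt ?_
    exact ContinuousAt.comp (f := fun u : OnePoint ℂ × (Fin m' → ℂ) => g v u.1 u.2)
      (g := hF.lift) (hF.lift_cont (hZ b hb v w)) (contAt hU (hN.cont v) hb)
  · exact (hF.lift_π _).trans (hN.proj b hb v w)
  · have hp' : S.π (M.r p) = φ b := (M.πr p).trans hp
    obtain ⟨v, w, e⟩ := hN.onto b hb (M.r p) hp'
    refine ⟨v, w, ?_⟩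
    have h1 := hZ b hb v w
    rw [e] at h1
    change hF.lift (g v w b) = p
    rw [e, hF.lift_eq h1]
  · rw [← hN.ident b hb v w v' w']
    constructor
    · intro e
      have := congrArg M.r e
      rwa [hF.r_lift, hF.r_lift] at this
    · intro e
      exact congrArg hF.lift e
  · exact hN.hol b hb v w (f ∘ hF.lift) (hF.lift_hol (hZ b hb v w) hf)
  · exact congrArg hF.lift (hN.mark b hb x)

/-- The data of a new component of a modification over the part `φ(U)` of the base: `κ · b` is the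
new component over `φ b`, and it meets the old components `vj j` at their points `zj j b`; the
position of this point on the new component is `cj j`. -/
structure NewComp (M : Modif S N') (U : Set (Fin m' → ℂ)) (φ : (Fin m' → ℂ) → Fin m → ℂ)
    (g : V → OnePoint ℂ → (Fin m' → ℂ) → S.X) (κ : OnePoint ℂ → (Fin m' → ℂ) → N'.X)
    (p : (Fin m' → ℂ) → S.X)
    (vj : J → V) (zj : J → (Fin m' → ℂ) → OnePoint ℂ) (cj : J → OnePoint ℂ) : Prop where
  mem : ∀ b ∈ U, p b ∈ M.Z
  proj : ∀ b ∈ U, S.π (p b) = φ b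
  uniq : ∀ b ∈ U, ∀ x ∈ M.Z, S.π x = φ b → x = p b
  κρ : ∀ b ∈ U, ∀ w, M.ρ (κ w b) = p b
  κsurj : ∀ b ∈ U, ∀ y, M.ρ y = p b → ∃ w, κ w b = y
  κinj : ∀ b ∈ U, ∀ w w', κ w b = κ w' b → w = w'
  κcont : ContinuousOn (fun u : OnePoint ℂ × (Fin m' → ℂ) => κ u.1 u.2) (univ ×ˢ U)
  κhol : ∀ b ∈ U, ∀ w f, N'.hol (κ w b) f → Hol1 (fun w b => f (κ w b)) w b
  vinj : ∀ j j', vj j = vj j' → j = j'
  cinj : ∀ j j', cj j = cj j' → j = j'
  branch : ∀ b ∈ U, ∀ v w, g v w b = p b ↔ ∃ j, v = vj j ∧ w = zj j b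
  lift : ∀ j, ∀ b ∈ U, ∃ l : OnePoint ℂ × (Fin m' → ℂ) → N'.X,
    (∀ᶠ u in 𝓝 (zj j b, b), M.ρ (l u) = g (vj j) u.1 u.2) ∧
    (∀ᶠ u in 𝓝 (zj j b, b), u.1 = zj j u.2 → l u = κ (cj j) u.2) ∧
    ContinuousAt l (zj j b, b) ∧
    ∀ f, N'.hol (l (zj j b, b)) f → Hol1 (fun w b => f (l (w, b))) (zj j b) b

open Classical in
/-- The new normalization. -/
def newg (M : Modif S N') (hF : M.Fib) (g : V → OnePoint ℂ → (Fin m' → ℂ) → S.X)
    (κ : OnePoint ℂ → (Fin m' → ℂ) → N'.X)
    (vj : J → V) (zj : J → (Fin m' → ℂ) → OnePoint ℂ) (cj : J → OnePoint ℂ) (v : Option V)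
    (w : OnePoint ℂ) (b : Fin m' → ℂ) : M.T.X :=
  v.elim (M.ιN (κ w b)) fun v => if h : ∃ j, v = vj j ∧ w = zj j b then
    M.ιN (κ (cj h.choose) b) else hF.lift (g v w b)

section

variable {M : Modif S N'} (hF : M.Fib) {κ : OnePoint ℂ → (Fin m' → ℂ) → N'.X}
  {p : (Fin m' → ℂ) → S.X} {vj : J → V} {zj : J → (Fin m' → ℂ) → OnePoint ℂ}
  {cj : J → OnePoint ℂ}

theorem newg_none (w : OnePoint ℂ) (b : Fin m' → ℂ) :
    newg M hF g κ vj zj cj none w b = M.ιN (κ w b) := rfl

variable (K : NewComp M U φ g κ p vj zj cj)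

include K

theorem newg_branch {j : J} {b : Fin m' → ℂ} (_hb : b ∈ U) :
    newg M hF g κ vj zj cj (some (vj j)) (zj j b) b = M.ιN (κ (cj j) b) := by
  have h : ∃ j', vj j = vj j' ∧ zj j b = zj j' b := ⟨j, rfl, rfl⟩
  unfold newg
  rw [Option.elim_some, dif_pos h, K.vinj _ _ h.choose_spec.1.symm]

theorem newg_off {v : V} {w : OnePoint ℂ} {b : Fin m' → ℂ} (hb : b ∈ U) (hp : g v w b ≠ p b) :
    newg M hF g κ vj zj cj (some v) w b = hF.lift (g v w b) := by
  unfold newg
  rw [Option.elim_some, dif_neg]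
  intro h
  exact hp ((K.branch b hb v w).2 h)

variable (hU : IsOpen U) (hcont : ∀ v, ContinuousOn
    (fun u : OnePoint ℂ × (Fin m' → ℂ) => g v u.1 u.2) (univ ×ˢ U))
  (hproj : ∀ b ∈ U, ∀ v w, S.π (g v w b) = φ b)

include hU hcont hproj

omit hU hcont in
theorem off_Z {v : V} {w : OnePoint ℂ} {b : Fin m' → ℂ} (hb : b ∈ U) (hp : g v w b ≠ p b) :
    g v w b ∉ M.Z := fun h => hp (K.uniq b hb _ h (hproj b hb v w))

/-- Near a point outside the centre the new normalization is the lift of the old one. -/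
theorem newg_ev_off {v : V} {w : OnePoint ℂ} {b : Fin m' → ℂ} (hb : b ∈ U) (hp : g v w b ≠ p b) :
    ∀ᶠ u : OnePoint ℂ × (Fin m' → ℂ) in 𝓝 (w, b),
      newg M hF g κ vj zj cj (some v) u.1 u.2 = hF.lift (g v u.1 u.2) := by
  have h1 : ∀ᶠ u : OnePoint ℂ × (Fin m' → ℂ) in 𝓝 (w, b), u.2 ∈ U :=
    continuousAt_snd.eventually (hU.mem_nhds hb)
  have h2 : ∀ᶠ u : OnePoint ℂ × (Fin m' → ℂ) in 𝓝 (w, b), g v u.1 u.2 ∈ M.Zᶜ :=
    (contAt hU (hcont v) hb).eventually (M.closed.isOpen_compl.mem_nhds (off_Z K hproj hb hp))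
  filter_upwards [h1, h2] with u hu hz
  exact newg_off hF K hu fun e => hz (e ▸ K.mem _ hu)

omit hcont in
/-- Near a branch point the new normalization is the given lift. -/
theorem newg_ev_branch {j : J} {b : Fin m' → ℂ} (hb : b ∈ U)
    {l : OnePoint ℂ × (Fin m' → ℂ) → N'.X}
    (h1 : ∀ᶠ u in 𝓝 (zj j b, b), M.ρ (l u) = g (vj j) u.1 u.2)
    (h2 : ∀ᶠ u in 𝓝 (zj j b, b), u.1 = zj j u.2 → l u = κ (cj j) u.2) :
    ∀ᶠ u : OnePoint ℂ × (Fin m' → ℂ) in 𝓝 (zj j b, b),
      newg M hF g κ vj zj cj (some (vj j)) u.1 u.2 = M.ιN (l u) := by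
  have h3 : ∀ᶠ u : OnePoint ℂ × (Fin m' → ℂ) in 𝓝 (zj j b, b), u.2 ∈ U :=
    continuousAt_snd.eventually (hU.mem_nhds hb)
  filter_upwards [h1, h2, h3] with u e1 e2 hu
  by_cases hp : g (vj j) u.1 u.2 = p u.2
  · obtain ⟨j', hv, hz⟩ := (K.branch _ hu _ _).1 hp
    have := K.vinj _ _ hv
    subst this
    rw [e2 hz, hz]
    exact newg_branch hF K hu
  · rw [newg_off hF K hu hp, ← e1]
    exact hF.lift_ρ (by rw [e1]; exact off_Z K hproj hu hp)

theorem newg_cont (v : Option V) {w : OnePoint ℂ} {b : Fin m' → ℂ} (hb : b ∈ U) :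
    ContinuousAt (fun u : OnePoint ℂ × (Fin m' → ℂ) => newg M hF g κ vj zj cj v u.1 u.2)
      (w, b) := by
  cases v with
  | none =>
    exact ContinuousAt.comp (f := fun u : OnePoint ℂ × (Fin m' → ℂ) => κ u.1 u.2) (g := M.ιN)
      M.embN.continuous.continuousAt (contAt hU K.κcont hb)
  | some v =>
    by_cases hp : g v w b = p b
    · obtain ⟨j, rfl, rfl⟩ := (K.branch b hb v w).1 hp
      obtain ⟨l, h1, h2, h3, -⟩ := K.lift j b hb
      refine ContinuousAt.congr (f := M.ιN ∘ l) ?_ ?_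
      · exact M.embN.continuous.continuousAt.comp h3
      · exact (newg_ev_branch hF K hU hproj hb h1 h2).mono fun u hu => hu.symm
    · refine ContinuousAt.congr (f := fun u : OnePoint ℂ × (Fin m' → ℂ) => hF.lift (g v u.1 u.2))
        ?_ ?_
      · exact ContinuousAt.comp (f := fun u : OnePoint ℂ × (Fin m' → ℂ) => g v u.1 u.2)
          (g := hF.lift) (hF.lift_cont (off_Z K hproj hb hp)) (contAt hU (hcont v) hb)
      · exact (newg_ev_off hF K hU hcont hproj hb hp).mono fun u hu => hu.symm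

omit hU hcont in
theorem newg_proj {b : Fin m' → ℂ} (hb : b ∈ U) (v : Option V) (w : OnePoint ℂ) :
    M.T.π (newg M hF g κ vj zj cj v w b) = φ b := by
  have hκ : ∀ w, M.T.π (M.ιN (κ w b)) = φ b := by
    intro w
    rw [← M.πr, M.rN, K.κρ b hb, K.proj b hb]
  cases v with
  | none => exact hκ w
  | some v =>
    by_cases hp : g v w b = p b
    · obtain ⟨j, rfl, rfl⟩ := (K.branch b hb v w).1 hp
      rw [newg_branch hF K hb]
      exact hκ _
    · rw [newg_off hF K hb hp, hF.lift_π]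
      exact hproj b hb v w

omit hU hcont hproj in
theorem newg_r {b : Fin m' → ℂ} (hb : b ∈ U) (v : V) (w : OnePoint ℂ) :
    M.r (newg M hF g κ vj zj cj (some v) w b) = g v w b := by
  by_cases hp : g v w b = p b
  · obtain ⟨j, rfl, rfl⟩ := (K.branch b hb v w).1 hp
    rw [newg_branch hF K hb, M.rN, K.κρ b hb, hp]
  · rw [newg_off hF K hb hp, hF.r_lift]

omit hU hcont in
theorem newg_onto {b : Fin m' → ℂ} (hb : b ∈ U)
    (honto : ∀ x, S.π x = φ b → ∃ v w, g v w b = x) (y : M.T.X) (hy : M.T.π y = φ b) :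
    ∃ v w, newg M hF g κ vj zj cj v w b = y := by
  by_cases hp : M.r y = p b
  · have h1 : M.r y ∈ M.N := M.sub (hp ▸ K.mem b hb)
    obtain ⟨c, rfl⟩ := M.mem_rangeN.2 h1
    rw [M.rN] at hp
    obtain ⟨w, rfl⟩ := K.κsurj b hb c hp
    exact ⟨none, w, rfl⟩
  · have hy' : S.π (M.r y) = φ b := by rw [M.πr]; exact hy
    obtain ⟨v, w, e⟩ := honto _ hy'
    refine ⟨some v, w, ?_⟩
    have h1 : g v w b ≠ p b := by rw [e]; exact hp
    rw [newg_off hF K hb h1, e]
    exact hF.lift_eq (by rw [← e]; exact off_Z K hproj hb h1)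

omit hU hcont hproj in
theorem newg_ident_none {b : Fin m' → ℂ} (hb : b ∈ U) (w w' : OnePoint ℂ) :
    newg M hF g κ vj zj cj none w b = newg M hF g κ vj zj cj none w' b ↔ w = w' := by
  constructor
  · intro e
    exact K.κinj b hb _ _ (M.embN.injective e)
  · rintro rfl
    rfl

omit hU hcont hproj in
theorem newg_ident_mixed {b : Fin m' → ℂ} (hb : b ∈ U) (v : V) (w w' : OnePoint ℂ) :
    newg M hF g κ vj zj cj none w b = newg M hF g κ vj zj cj (some v) w' b ↔
      ∃ j, w = cj j ∧ v = vj j ∧ w' = zj j b := by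
  constructor
  · intro e
    have h1 := congrArg M.r e
    rw [newg_none, M.rN, K.κρ b hb, newg_r hF K hb] at h1
    obtain ⟨j, rfl, rfl⟩ := (K.branch b hb v w').1 h1.symm
    rw [newg_branch hF K hb] at e
    exact ⟨j, K.κinj b hb _ _ (M.embN.injective e), rfl, rfl⟩
  · rintro ⟨j, rfl, rfl, rfl⟩
    rw [newg_branch hF K hb]
    rfl

omit hU hcont hproj in
theorem newg_ident_some {b : Fin m' → ℂ} (hb : b ∈ U) (v v' : V) (w w' : OnePoint ℂ) :
    newg M hF g κ vj zj cj (some v) w b = newg M hF g κ vj zj cj (some v') w' b ↔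
      (v = v' ∧ w = w') ∨ (g v w b = g v' w' b ∧ g v w b ≠ p b) := by
  constructor
  · intro e
    have h1 := congrArg M.r e
    rw [newg_r hF K hb, newg_r hF K hb] at h1
    by_cases hp : g v w b = p b
    · left
      obtain ⟨j, rfl, rfl⟩ := (K.branch b hb v w).1 hp
      obtain ⟨j', rfl, rfl⟩ := (K.branch b hb v' w').1 (h1 ▸ hp)
      rw [newg_branch hF K hb, newg_branch hF K hb] at e
      have := K.cinj _ _ (K.κinj b hb _ _ (M.embN.injective e))
      subst this
      exact ⟨rfl, rfl⟩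
    · exact Or.inr ⟨h1, hp⟩
  · rintro (⟨rfl, rfl⟩ | ⟨e, hp⟩)
    · rfl
    · rw [newg_off hF K hb hp, newg_off hF K hb (e ▸ hp), e]

theorem newg_hol (hhol : ∀ b ∈ U, ∀ v w f, S.hol (g v w b) f → Hol1 (fun w b => f (g v w b)) w b)
    {b : Fin m' → ℂ} (hb : b ∈ U) (v : Option V) (w : OnePoint ℂ) (f : M.T.X → ℂ)
    (hf : M.T.hol (newg M hF g κ vj zj cj v w b) f) :
    Hol1 (fun w b => f (newg M hF g κ vj zj cj v w b)) w b := by
  cases v with
  | none => exact K.κhol b hb w (f ∘ M.ιN) ((M.holN _ _).1 hf)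
  | some v =>
    by_cases hp : g v w b = p b
    · obtain ⟨j, rfl, rfl⟩ := (K.branch b hb v w).1 hp
      obtain ⟨l, h1, h2, h3, h4⟩ := K.lift j b hb
      have h5 := newg_ev_branch hF K hU hproj hb h1 h2
      have e5 : newg M hF g κ vj zj cj (some (vj j)) (zj j b) b = M.ιN (l (zj j b, b)) :=
        h5.self_of_nhds
      rw [e5] at hf
      refine Hol1.congr (h4 (f ∘ M.ιN) ((M.holN _ _).1 hf)) ?_
      filter_upwards [h5] with u hu
      rw [hu]; rfl
    · have e5 := newg_off hF K hb hp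
      rw [e5] at hf
      refine Hol1.congr (hhol b hb v w _ (hF.lift_hol (off_Z K hproj hb hp) hf)) ?_
      filter_upwards [newg_ev_off hF K hU hcont hproj hb hp] with u hu
      rw [hu]; rfl

end

end Vale.Agent.P273.H591

end
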