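import Vale.Agent.P273.H591.StartQS
import Vale.Agent.P273.H507.StartLab
import Vale.Agent.P273.H599.Bas
import Vale.Agent.P273.H395.Comp2

/-!
The start of the insertion process at the points of the open strata of the regions.
-/

noncomputable section

namespace Vale.Agent.P273.H591

open Set Filter Topology H183 H837 H395 H948 H724
open H95 (Region ctr gk gc gcw thA L)
open H888 (Far)
open H728 (rg mz)
open H228 (VC EC he zE lastE lastE_inj loc AtN atS vS uS wS startV startE startE_not start_he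
  start_loc uP vP)
open H67 (tau)

variable {n m' : ℕ} {T : H93.RB} {S : L → Bool} {κ : (Fin n → ℂ) ≃L[ℂ] (rg T).Sp}

/-- The position of a mark on a core is not a node. -/
theorem mz_ne_ctr (hS : Far (rg T) S) {p : (rg T).Sp} (hp : p ∈ (rg T).dom S)
    (hc : ∀ g : (rg T).Gap, p.1 g = 0 ↔ (g.2 : ℕ) ∈ T.B g.1) {x : L} {s : Bool}
    (hx : T.comp x = Sum.inl s) (k : Fin 3) : mz T S p x ≠ ((ctr k : ℂ) : OnePoint ℂ) := by
  have h0 := eps_zero hc
  have e0 : mz T S p x = if S x then inf ((rg T).pos p x) else ((rg T).pos p x : OnePoint ℂ) := by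
    unfold H728.mz
    rw [hx]
  rw [e0]
  rcases hpl : (rg T).pl x with k' | s'
  · have hSx : S x = false := by
      by_contra hcon
      have h1 := hS x (by simpa using hcon)
      rw [hpl] at h1
      simp at h1
    rw [hSx, if_neg (by simp)]
    intro e
    have e1 : (rg T).pos p x = ctr k := OnePoint.coe_injective e
    have hnear := neck_near hp hpl
    have hk : k = k' := by
      by_contra hk
      have h2 := neck_far hk hnear
      rw [e1, sub_self, norm_zero] at h2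
      linarith
    subst hk
    have h3 := pos_neck p hpl
    have h4 : (rg T).XX p k ((rg T).rk x) * (rg T).YY p k ((rg T).rk x) = 0 := by
      rw [H724.XX_mul_YY, h0]
    have h5 : (rg T).XX p k ((rg T).rk x) + (rg T).YY p k ((rg T).rk x) = 0 := by
      rw [e1] at h3
      linear_combination (-2) * h3
    have h6 : (rg T).XX p k ((rg T).rk x) = 0 ∧ (rg T).YY p k ((rg T).rk x) = 0 := by
      rcases mul_eq_zero.1 h4 with h | h
      · rw [h, zero_add] at h5; exact ⟨h, h5⟩
      · rw [h, add_zero] at h5; exact ⟨h5, h⟩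
    obtain ⟨h7, h8⟩ := h6
    rw [H67.XX_eq, H67.prod_eq_zero_iff hc rg_le] at h7
    rw [H67.YY_eq, H67.prod_eq_zero_iff hc rg_le] at h8
    obtain ⟨b, hb, hb'⟩ := h7
    obtain ⟨b', hbb, hbb'⟩ := h8
    rw [Finset.mem_range] at hb'
    rw [Finset.mem_Ioc] at hbb'
    have h9 : 1 ≤ T.cnt k (T.rk x) := H93.RB.cnt_pos hb (Nat.lt_succ_iff.1 hb')
    have h10 : T.cnt k (T.rk x) < (T.B k).card := H93.RB.cnt_lt_card hbb hbb'.1
    have h11 : T.comp x = Sum.inr (k, T.cnt k (T.rk x)) :=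
      H93.RB.comp_eq_inr.2 ⟨hpl, rfl, h9, h10.ne⟩
    rw [hx] at h11
    cases h11
  · rcases hSx : S x with _ | _
    · rw [if_neg (by simp)]
      intro e
      have e1 : (rg T).pos p x = ctr k := OnePoint.coe_injective e
      have := core_frac hp hpl hSx k
      rw [e1, sub_self, norm_zero, h0, norm_zero] at this
      norm_num at this
    · rw [if_pos rfl]
      intro e
      have hw : (rg T).pos p x ≠ 0 := by
        intro h
        rw [h, H395.inf_zero] at e
        exact OnePoint.coe_ne_infty _ e.symm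
      have e1 : ((rg T).pos p x)⁻¹ = ctr k := by
        have : inf ((rg T).pos p x) = ((((rg T).pos p x)⁻¹ : ℂ) : OnePoint ℂ) := if_neg hw
        rw [this] at e
        exact OnePoint.coe_injective e
      have := core_fracw hp hpl hSx k
      rw [← e1, inv_mul_cancel₀ hw, sub_self, norm_zero, h0, zero_mul, norm_zero] at this
      norm_num at this

/-- The positions of the half-edges of the start graph. -/
theorem zE_start (hf : ∀ k : Fin 3, (fun _ : Fin 3 => 0) k = 0) (y : EC (fun _ => 0) × Bool)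
    (b : Fin m' → ℂ) : zE (fun _ => 0) (fun k _ => ((ctr k : ℂ) : OnePoint ℂ)) y b =
      ((ctr (startE hf false y).1 : ℂ) : OnePoint ℂ) := by
  obtain ⟨⟨⟨k, i⟩, hi⟩, s⟩ := y
  have h0 : i = 0 := Nat.le_zero.1 hi
  subst h0
  cases s <;> rfl

open Classical in
/-- **The start of the insertion process.** -/
theorem start_inv (hS : Far (rg T) S) {U : Set (Fin m' → ℂ)} (hU : IsOpen U)
    {φ : (Fin m' → ℂ) → (rg T).Sp} (hφ : ∀ b ∈ U, AnalyticAt ℂ φ b)
    (hdom : ∀ b ∈ U, φ b ∈ (rg T).dom S)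
    (hgap : ∀ b ∈ U, ∀ g : (rg T).Gap, (φ b).1 g = 0 ↔ (g.2 : ℕ) ∈ T.B g.1)
    {b₀ : Fin m' → ℂ} (hb₀ : b₀ ∈ U) :
    ∃ (_ : Nonempty (tot (base0 κ S) (co0 κ))) (B : Set (Fin n → ℂ)) (U' : Set (Fin m' → ℂ))
      (ε : ℝ), b₀ ∈ U' ∧ U' ⊆ U ∧
      H228.Bas T (fun b => tau (R := rg T) (κ b)) B U' (fun b => κ.symm (φ b)) (st0 κ S)
        (P0 κ S) ε ∧
      H228.Inv T (fun b => tau (R := rg T) (κ b)) B U' (fun b => κ.symm (φ b)) (st0 κ S)
        (P0 κ S) (fun k _ => ((ctr k : ℂ) : OnePoint ℂ)) (fun x b => mz T S (φ b) x)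
        fun _ => 0 := by
  -- the map to the base
  have hφ' : ∀ b ∈ U, AnalyticAt ℂ (fun b => κ.symm (φ b)) b := by
    intro b hb
    have h1 : AnalyticAt ℂ (fun p : (rg T).Sp => κ.symm p) (φ b) :=
      (κ.symm : (rg T).Sp →L[ℂ] (Fin n → ℂ)).analyticAt _
    exact AnalyticAt.comp (g := fun p : (rg T).Sp => κ.symm p) h1 (hφ b hb)
  have hκ : ∀ b, κ (κ.symm (φ b)) = φ b := fun b => κ.apply_symm_apply _
  have hB : ∀ b ∈ U, κ.symm (φ b) ∈ base0 κ S := fun b hb => by
    change κ (κ.symm (φ b)) ∈ (rg T).dom S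
    rw [hκ]; exact hdom b hb
  have h0 : ∀ b ∈ U, ∀ k, (rg T).eps (κ (κ.symm (φ b))) k = 0 := fun b hb k => by
    rw [hκ]; exact eps_zero (hgap b hb) k
  have hZB : ∀ b ∈ U, H507.ZB T (κ (κ.symm (φ b))) := fun b hb g hg => by
    rw [hκ]; exact (hgap b hb g).2 hg
  obtain ⟨g, hN, hA, hF⟩ := start_normS (S := S) hU ⟨b₀, hb₀⟩ hφ' hB h0
  have hne : Nonempty (tot (base0 κ S) (co0 κ)) := ⟨g false OnePoint.infty b₀⟩
  -- the labels
  obtain ⟨lab1, lab2⟩ := H507.start_lab (W := base0 κ S) (φ := fun b => κ.symm (φ b))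
    base0_base0 hS hB hZB (g := g) (fun s w b hb => hN.proj b hb s w)
    (fun s x b hb => ⟨(hA s x b hb).1, congrArg (fun z => z.2.1) (hA s x b hb).2,
      congrArg (fun z => z.2.2) (hA s x b hb).2⟩)
    (fun s t b hb => ⟨(hF s t b hb).1, congrArg (fun z => z.2.1) (hF s t b hb).2,
      congrArg (fun z => z.2.2) (hF s t b hb).2⟩)
  -- the graph
  have hf : ∀ k : Fin 3, (fun _ : Fin 3 => 0) k = 0 := fun _ => rfl
  have hN' : NormS (st0 κ S) U (fun b => κ.symm (φ b)) (he fun _ => 0)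
      (zE (fun _ => 0) fun k _ => ((ctr k : ℂ) : OnePoint ℂ))
      (fun v w b => g (startV hf false v) w b) :=
    H951.NormS.reindex' hN (startV hf false) (startE hf false) (startE_not hf false)
      (start_he hf) fun y b _ => zE_start hf y b
  have hnode : ∀ (k : Fin 3) (b : Fin m' → ℂ),
      g (startV hf false (he (fun _ => 0) (lastE (fun _ => 0) k, true)))
        (zE (fun _ => 0) (fun k _ => ((ctr k : ℂ) : OnePoint ℂ)) (lastE (fun _ => 0) k, true) b) b =
      g false ((ctr k : ℂ) : OnePoint ℂ) b := by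
    intro k b
    rw [start_he hf, zE_start hf]
    rfl
  have hnode' : ∀ (k : Fin 3) (b : Fin m' → ℂ),
      startV hf false (he (fun _ => 0) (lastE (fun _ => 0) k, false)) = true := by
    intro k b
    rw [start_he hf]
    rfl
  -- the initial state
  set σ₀ : State (st0 κ S) (P0 κ S) ∅ :=
    State.init (startP (base0 κ S) (co0 κ) base0_open (fun b _ => co0_an b) co0_K) (P0 κ S)
      (isSec0 hS) with hσ₀
  -- the models
  have hmod : ∀ k, ∃ O : Set (st0 κ S).X, (g false ((ctr k : ℂ) : OnePoint ℂ) b₀ ∈ O) ∧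
      IsModel (st0 κ S).π (st0 κ S).hol O (uN κ S k) (vN κ S k) (fun b => (rg T).eps (κ b) k) := by
    intro k
    obtain ⟨h1, h2⟩ := hA false (ctr k) b₀ hb₀
    refine node_model h1 (congrArg (fun z => z.2.1) h2) ?_
    refine (congrArg (fun z => z.2.2) h2).trans ?_
    change sg false * ((ctr k - ctr 0) * (ctr k - ctr 1) * (ctr k - ctr 2)) = 0
    rw [gk_zero k, sub_self, zero_mul, mul_zero]
  choose O hO1 hO2 using hmod
  have hat : ∀ k j, j ∈ atS T (fun _ => 0) k → ∃ r, T.comp j = Sum.inr (k, r) := by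
    rintro k j ⟨r, hr, -⟩
    exact ⟨r, hr⟩
  have hnat : ∀ k j, j ∉ atS T (fun _ => 0) k → (∃ s, T.comp j = Sum.inl s) ∨
      ∃ k' r, k' ≠ k ∧ T.comp j = Sum.inr (k', r) := by
    intro k j hj
    rcases hc : T.comp j with s | ⟨k', r⟩
    · exact Or.inl ⟨s, rfl⟩
    · refine Or.inr ⟨k', r, ?_, rfl⟩
      rintro rfl
      refine hj ⟨r, hc, ?_⟩
      have := (H93.RB.comp_eq_inr.1 hc).2.2.1
      exact this
  obtain ⟨ε, hε, -, hPr⟩ := H599.exists_prB (S := S) (κ := κ) (hdom b₀ hb₀) (hgap b₀ hb₀)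
    one_pos
  have key := exists_QS (σ := σ₀) (K := Fin 3) (eK := lastE fun _ => 0)
      (at' := atS T fun _ => 0)
      (vL := vS T fun _ => 0) (zL := fun x b => mz T S (φ b) x) (Uc := O)
      (u := uN κ S) (v := vN κ S) (t := fun k b => (rg T).eps (κ b) k)
      (uf := uS T (fun b => tau (R := rg T) (κ b)) fun _ => 0)
      (vf := wS T (fun b => tau (R := rg T) (κ b)))
      (Pr := H599.PrB T S κ ε) hU hb₀ (fun b hb => (hφ' b hb).continuousAt) hN' hB lastE_inj
  refine (fun hkey => ?_) (key ?_ ?_ hO2 ?_ ?_ ?_ ?_ ?_ hPr)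
  · obtain ⟨B', hB', hBB, x₀, U', hcB, hPB, hU'o, hUU, hU'b, g', Uc', u', v', Q⟩ := hkey
    refine ⟨hne, B', U', ε, hU'b, hUU, ?_, σ₀.shrink B' hB' hBB x₀, g', Uc', u', v', _, rfl, ?_, Q⟩
    · exact H599.bas_of hS base0_open subset_rfl (fun b _ => co0_an b) co0_K hBB hε hPB hU'o
        ⟨b₀, hU'b⟩ (fun b hb => hφ b (hUU hb)) (fun b hb => hgap b (hUU hb))
    · exact (Stb.init fun b hb => H949.start_noFld base0_open (fun b _ => co0_an b) co0_K hb _).shrink
        B' hB' hBB x₀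
  · -- labels on the cores
    intro j hj b hb
    rcases hnat 0 j (hj 0) with ⟨s, hs⟩ | ⟨k', r, -, hr⟩
    · have e1 := lab1 j s hs b hb
      rw [hκ] at e1
      change P0 κ S j (κ.symm (φ b)) = g (startV hf false (loc _ (T.comp j))) _ b
      rw [start_loc, hs]
      exact e1
    · exfalso
      refine hj k' ⟨r, hr, ?_⟩
      exact (H93.RB.comp_eq_inr.1 hr).2.2.1
  · -- labels at the nodes
    intro k j hj b hb
    obtain ⟨r, hr⟩ := hat k j hj
    rw [hnode]
    exact (lab2 j k r hr b hb).2.2 false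
  · intro k
    rw [hnode]; exact hO1 k
  · intro k b hb
    rw [hnode]
    have hx : ‖ctr k - ctr k‖ < 1 / 8 := by rw [sub_self, norm_zero]; norm_num
    refine ⟨?_, (start_branch h0 hA hb k hx).1⟩
    obtain ⟨-, h2⟩ := hA false (ctr k) b hb
    have h3 : yC (g false ((ctr k : ℂ) : OnePoint ℂ) b) = 0 := by
      refine (congrArg (fun z => z.2.2) h2).trans ?_
      change sg false * ((ctr k - ctr 0) * (ctr k - ctr 1) * (ctr k - ctr 2)) = 0
      rw [gk_zero k, sub_self, zero_mul, mul_zero]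
    have h4 : xC (g false ((ctr k : ℂ) : OnePoint ℂ) b) = ctr k := congrArg (fun z => z.2.1) h2
    unfold uN
    rw [h3, h4, sub_self, zero_div, add_zero]
  · -- the branches
    intro k b hb
    have e1 : ∀ b : Fin m' → ℂ, zE (fun _ => 0) (fun k _ => ((ctr k : ℂ) : OnePoint ℂ))
        (lastE (fun _ => 0) k, true) b = ((ctr k : ℂ) : OnePoint ℂ) := fun b => zE_start hf _ b
    have e2 : ∀ b : Fin m' → ℂ, zE (fun _ => 0) (fun k _ => ((ctr k : ℂ) : OnePoint ℂ))
        (lastE (fun _ => 0) k, false) b = ((ctr k : ℂ) : OnePoint ℂ) := fun b => zE_start hf _ b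
    have hev : ∀ᶠ p : OnePoint ℂ × (Fin m' → ℂ) in 𝓝 (((ctr k : ℂ) : OnePoint ℂ), b), p.2 ∈ U :=
      continuousAt_snd.eventually (hU.mem_nhds hb)
    rw [e1, e2]
    constructor
    · filter_upwards [near_ctr k b, hev] with p hp hp'
      obtain ⟨x, hx, hx'⟩ := hp
      rw [start_he hf, hx]
      exact (start_branch h0 hA hp' k hx').1
    · filter_upwards [near_ctr k b, hev] with p hp hp'
      obtain ⟨x, hx, hx'⟩ := hp
      rw [start_he hf, hx]
      exact (start_branch h0 hA hp' k hx').2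
  · -- the coordinates
    intro k j hj b hb
    obtain ⟨r, hr⟩ := hat k j hj
    have hpl : (rg T).pl j = Sum.inl k := (H93.RB.comp_eq_inr.1 hr).1
    obtain ⟨h1, h2⟩ := uN_P0 hS hpl hb
    rw [H67.XX_J] at h1
    rw [H67.YY_J] at h2
    exact ⟨h1, h2⟩
  · -- the other labels
    intro k j hj e
    rw [hnode] at e
    have e : P0 κ S j (κ.symm (φ b₀)) = g false ((ctr k : ℂ) : OnePoint ℂ) b₀ := e
    rcases hnat k j hj with ⟨s, hs⟩ | ⟨k', r, hk, hr⟩
    · have e1 := lab1 j s hs b₀ hb₀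
      rw [hκ] at e1
      have e2 : g s (mz T S (φ b₀) j) b₀ = g false ((ctr k : ℂ) : OnePoint ℂ) b₀ :=
        e1.symm.trans e
      have hne' := mz_ne_ctr hS (hdom b₀ hb₀) (hgap b₀ hb₀) hs
      rcases (hN.ident b₀ hb₀ _ _ _ _).1 e2 with ⟨-, h2⟩ | ⟨e', s', ⟨-, h2⟩, -⟩
      · exact hne' k h2
      · exact hne' e' h2
    · have e1 := (lab2 j k' r hr b₀ hb₀).2.2 true
      have e2 := (lab2 j k' r hr b₀ hb₀).2.2 false
      have e3 : g false ((ctr k' : ℂ) : OnePoint ℂ) b₀ = g false ((ctr k : ℂ) : OnePoint ℂ) b₀ :=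
        e2.symm.trans e
      rcases (hN.ident b₀ hb₀ _ _ _ _).1 e3 with ⟨-, h2⟩ | ⟨e', s', ⟨h1, -⟩, h2, -⟩
      · exact hk (ctr_inj (OnePoint.coe_injective h2))
      · have h1 : false = s' := h1
        have h2 : false = !s' := h2
        rw [← h1] at h2
        exact absurd h2 (by simp)

/-- **The start of the insertion process at the points of the open strata.** -/
theorem startEx : H395.StartEx := by
  intro T S hS m U φ hU hφ hdom hgap b₀ hb₀
  exact start_inv hS hU hφ hdom hgap hb₀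

end Vale.Agent.P273.H591

end
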