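import Vale.Agent.P273.H395.NodeNorm
import Vale.Agent.P273.H948.State

/-!
The invariant of the insertion of projective lines at the nodes of the necks, over an open stratum:
a state without marked points, normalization data along `φ : U → B`, and for each neck `k` a model
of the last node `eK k`, with the positions of the labels that are still at this node.
-/

noncomputable section

namespace Vale.Agent.P273.H591

open Set Filter Topology H183 H837 H395 H948

variable {V E K L : Type} {m m' : ℕ}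

/-- The invariant. `at' k` is the set of the labels at the last node `eK k` of the neck `k`; the
other labels are at `(vL j, zL j b)`. On the whole base the label `j` at the node `k` is the point
with coordinates `(uf k j, vf k j)` of the model `(Uc k, u k, v k)`, and the other labels are not in
`Uc k`. -/
structure QS {X₀ : Surf m} {P : L → (Fin m → ℂ) → X₀.X} (σ : State X₀ P ∅)
    (U : Set (Fin m' → ℂ)) (φ : (Fin m' → ℂ) → Fin m → ℂ) (h : E × Bool → V)
    (z : E × Bool → (Fin m' → ℂ) → OnePoint ℂ) (g : V → OnePoint ℂ → (Fin m' → ℂ) → σ.F.S.X)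
    (eK : K → E) (at' : K → Set L) (vL : L → V) (zL : L → (Fin m' → ℂ) → OnePoint ℂ)
    (Uc : K → Set σ.F.S.X) (u v : K → σ.F.S.X → ℂ) (t : K → (Fin m → ℂ) → ℂ)
    (uf vf : K → L → (Fin m → ℂ) → ℂ) : Prop where
  norm : NormS σ.F.S U φ h z g
  mem : ∀ b ∈ U, φ b ∈ σ.F.B
  inj : Function.Injective eK
  lab : ∀ j, (∀ k, j ∉ at' k) → ∀ b ∈ U, σ.s j (φ b) = g (vL j) (zL j b) b
  labn : ∀ k, ∀ j ∈ at' k, ∀ b ∈ U, σ.s j (φ b) = g (h (eK k, true)) (z (eK k, true) b) b
  model : ∀ k, IsModel σ.F.S.π σ.F.S.hol (Uc k) (u k) (v k) (t k)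
  disj : ∀ k k', k ≠ k' → Disjoint (Uc k) (Uc k')
  node : ∀ k, ∀ b ∈ U, g (h (eK k, true)) (z (eK k, true) b) b ∈ Uc k ∧
    u k (g (h (eK k, true)) (z (eK k, true) b) b) = 0 ∧
    v k (g (h (eK k, true)) (z (eK k, true) b) b) = 0
  br : ∀ k, Br U h z g (eK k) (u k) (v k)
  inU : ∀ k, ∀ j ∈ at' k, ∀ b ∈ σ.F.B, σ.s j b ∈ Uc k ∧ u k (σ.s j b) = uf k j b ∧
    v k (σ.s j b) = vf k j b
  off : ∀ k, ∀ j ∉ at' k, ∀ b ∈ σ.F.B, σ.s j b ∉ Uc k

end Vale.Agent.P273.H591

end
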