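import Vale.Agent.P273.H951.QRe
import Vale.Agent.P273.H591.Next

/-!
The invariant `QS` at the start, after a shrink of the base: all conditions are needed only at one
point.
-/

noncomputable section

namespace Vale.Agent.P273.H591

open Set Filter Topology H183 H837 H395 H948 H599 H951

variable {V E K L : Type} {m m' : ℕ} {X₀ : Surf m} {P : L → (Fin m → ℂ) → X₀.X}

/-- The nodes of different edges are different. -/
theorem node_inj {S : Surf m} {U : Set (Fin m' → ℂ)} {φ : (Fin m' → ℂ) → Fin m → ℂ}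
    {h : E × Bool → V} {z : E × Bool → (Fin m' → ℂ) → OnePoint ℂ}
    {g : V → OnePoint ℂ → (Fin m' → ℂ) → S.X} (hN : NormS S U φ h z g) {b : Fin m' → ℂ}
    (hb : b ∈ U) {e e' : E}
    (he : g (h (e, true)) (z (e, true) b) b = g (h (e', true)) (z (e', true) b) b) : e = e' := by
  rcases (hN.ident b hb _ _ _ _).1 he with ⟨h1, h2⟩ | ⟨e₁, s, ⟨h1, h2⟩, h3, h4⟩
  · exact congrArg Prod.fst (hN.sep b hb _ _ h1 h2)
  · have h5 := hN.sep b hb _ _ h1 h2
    have h6 := hN.sep b hb _ _ h3 h4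
    simp only [Prod.mk.injEq] at h5 h6
    rw [h5.1, h6.1]

/-- **The start**, generic form. -/
theorem exists_QS [Finite K] [Finite L] {σ : State X₀ P ∅} {U : Set (Fin m' → ℂ)}
    (hU : IsOpen U) {φ : (Fin m' → ℂ) → Fin m → ℂ} {h : E × Bool → V}
    {z : E × Bool → (Fin m' → ℂ) → OnePoint ℂ} {g : V → OnePoint ℂ → (Fin m' → ℂ) → σ.F.S.X}
    {eK : K → E} {at' : K → Set L} {vL : L → V} {zL : L → (Fin m' → ℂ) → OnePoint ℂ}
    {Uc : K → Set σ.F.S.X} {u v : K → σ.F.S.X → ℂ} {t : K → (Fin m → ℂ) → ℂ}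
    {uf vf : K → L → (Fin m → ℂ) → ℂ} {b₀ : Fin m' → ℂ} (hb₀ : b₀ ∈ U)
    (hφ : ∀ b ∈ U, ContinuousAt φ b) (norm : NormS σ.F.S U φ h z g)
    (mem : ∀ b ∈ U, φ b ∈ σ.F.B) (inj : Function.Injective eK)
    (lab : ∀ j, (∀ k, j ∉ at' k) → ∀ b ∈ U, σ.s j (φ b) = g (vL j) (zL j b) b)
    (labn : ∀ k, ∀ j ∈ at' k, ∀ b ∈ U, σ.s j (φ b) = g (h (eK k, true)) (z (eK k, true) b) b)
    (model : ∀ k, IsModel σ.F.S.π σ.F.S.hol (Uc k) (u k) (v k) (t k))
    (hnd : ∀ k, g (h (eK k, true)) (z (eK k, true) b₀) b₀ ∈ Uc k)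
    (node : ∀ k, ∀ b ∈ U, u k (g (h (eK k, true)) (z (eK k, true) b) b) = 0 ∧
      v k (g (h (eK k, true)) (z (eK k, true) b) b) = 0)
    (br : ∀ k, Br U h z g (eK k) (u k) (v k))
    (inU : ∀ k, ∀ j ∈ at' k, ∀ b ∈ σ.F.B, u k (σ.s j b) = uf k j b ∧ v k (σ.s j b) = vf k j b)
    (off : ∀ k, ∀ j ∉ at' k, σ.s j (φ b₀) ≠ g (h (eK k, true)) (z (eK k, true) b₀) b₀)
    {Pr : (Fin m → ℂ) → Prop} (hPr : ∀ᶠ b in 𝓝 (φ b₀), Pr b) :
    ∃ (B' : Set (Fin m → ℂ)) (hB' : IsOpen B') (hB : B' ⊆ σ.F.B)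
      (x₀ : (σ.F.shrink B' hB' hB).S.X) (U' : Set (Fin m' → ℂ)), φ b₀ ∈ B' ∧ (∀ b ∈ B', Pr b) ∧
      IsOpen U' ∧ U' ⊆ U ∧ b₀ ∈ U' ∧
      ∃ (g' : V → OnePoint ℂ → (Fin m' → ℂ) → (σ.shrink B' hB' hB x₀).F.S.X)
        (Uc' : K → Set (σ.shrink B' hB' hB x₀).F.S.X)
        (u' v' : K → (σ.shrink B' hB' hB x₀).F.S.X → ℂ),
        QS (σ.shrink B' hB' hB x₀) U' φ h z g' eK at' vL zL Uc' u' v' t uf vf := by
  classical
  set nd : K → (Fin m' → ℂ) → σ.F.S.X := fun k b => g (h (eK k, true)) (z (eK k, true) b) b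
    with hndd
  have hc : φ b₀ ∈ σ.F.B := mem b₀ hb₀
  -- the nodes are different
  have hnn : ∀ k k', k ≠ k' → nd k b₀ ≠ nd k' b₀ := fun k k' hk e =>
    hk (inj (node_inj norm hb₀ e))
  -- separation
  have hfin : (range (fun k => nd k b₀) ∪ range (fun j => σ.s j (φ b₀))).Finite :=
    (finite_range _).union (finite_range _)
  obtain ⟨O, hO1, hO2⟩ := hfin.t2_separation
  have memK : ∀ k, nd k b₀ ∈ range (fun k => nd k b₀) ∪ range (fun j => σ.s j (φ b₀)) :=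
    fun k => Or.inl ⟨k, rfl⟩
  have memL : ∀ j, σ.s j (φ b₀) ∈ range (fun k => nd k b₀) ∪ range (fun j => σ.s j (φ b₀)) :=
    fun j => Or.inr ⟨j, rfl⟩
  set Uk : K → Set σ.F.S.X := fun k => Uc k ∩ O (nd k b₀) with hUk
  have hUko : ∀ k, IsOpen (Uk k) := fun k => (model k).isOpen.inter (hO1 _).2
  have hUkd : ∀ k k', k ≠ k' → Disjoint (Uk k) (Uk k') := fun k k' hk =>
    (hO2 (memK k) (memK k') (hnn k k' hk)).mono inter_subset_right inter_subset_right
  -- the conditions on the base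
  have hatc : ∀ k, ∀ j ∈ at' k, σ.s j (φ b₀) = nd k b₀ := fun k j hj => labn k j hj b₀ hb₀
  have ev1 : ∀ᶠ b in 𝓝 (φ b₀), ∀ j, σ.s j b ∈ O (σ.s j (φ b₀)) := by
    rw [eventually_all]
    exact fun j => eventually_mem σ hc j (hO1 _).2 (hO1 _).1
  have ev2 : ∀ᶠ b in 𝓝 (φ b₀), ∀ k j, j ∈ at' k → σ.s j b ∈ Uk k := by
    rw [eventually_all]
    intro k
    rw [eventually_all]
    intro j
    by_cases hj : j ∈ at' k
    · have h1 : σ.s j (φ b₀) ∈ Uk k := by
        rw [hatc k j hj]; exact ⟨hnd k, (hO1 _).1⟩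
      filter_upwards [eventually_mem σ hc j (hUko k) h1] with b hb _ using hb
    · exact Eventually.of_forall fun b hb => absurd hb hj
  have ev3 : ∀ᶠ b in 𝓝 (φ b₀), ∀ k j, j ∉ at' k → σ.s j b ∉ Uk k := by
    filter_upwards [ev1] with b hb k j hj hx
    exact disjoint_left.1 (hO2 (memL j) (memK k) (off k j hj)) (hb j) hx.2
  obtain ⟨B', hB', hB, x₀, hcB, hPB⟩ := exists_shrink σ hc (hPr.and (ev2.and ev3))
  -- the condition on the nodes
  have ev4 : ∀ᶠ b in 𝓝 b₀, ∀ k, nd k b ∈ Uk k := by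
    rw [eventually_all]
    intro k
    have h1 : ContinuousAt (fun b => (z (eK k, true) b, b)) b₀ :=
      ((norm.zc (eK k, true)).continuousAt (hU.mem_nhds hb₀)).prodMk continuousAt_id
    have h2 : ContinuousAt (fun u : OnePoint ℂ × (Fin m' → ℂ) => g (h (eK k, true)) u.1 u.2)
        (z (eK k, true) b₀, b₀) :=
      (norm.cont _).continuousAt ((isOpen_univ.prod hU).mem_nhds ⟨mem_univ _, hb₀⟩)
    have h3 : ContinuousAt (nd k) b₀ := ContinuousAt.comp
      (g := fun u : OnePoint ℂ × (Fin m' → ℂ) => g (h (eK k, true)) u.1 u.2)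
      (f := fun b => (z (eK k, true) b, b)) h2 h1
    exact h3.eventually_mem ((hUko k).mem_nhds ⟨hnd k, (hO1 _).1⟩)
  have ev5 : ∀ᶠ b in 𝓝 b₀, b ∈ U ∧ φ b ∈ B' :=
    (hU.eventually_mem hb₀).and ((hφ b₀ hb₀).eventually_mem (hB'.mem_nhds hcB))
  obtain ⟨U', hU'1, hU'o, hU'b⟩ := eventually_nhds_iff.1 (ev4.and ev5)
  have hUU : U' ⊆ U := fun b hb => (hU'1 b hb).2.1
  have hm : ∀ b ∈ U', φ b ∈ B' := fun b hb => (hU'1 b hb).2.2
  have hE := shInc_emb σ.F hB' hB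
  have key : ∀ b ∈ U', ∀ v w, shInc σ.F hB' hB (toSh σ.F hB' hB x₀ (g v w b)) = g v w b := by
    intro b hb v w
    refine shInc_toSh σ.F hB' hB x₀ ?_
    rw [norm.proj b (hUU hb)]; exact hm b hb
  have hs : ∀ j, ∀ b ∈ B', shInc σ.F hB' hB ((σ.shrink B' hB' hB x₀).s j b) = σ.s j b :=
    fun j b hb => shrink_s_eq σ hB' hB x₀ j hb
  have hev : ∀ (e : E × Bool), ∀ b ∈ U', ∀ᶠ p : OnePoint ℂ × (Fin m' → ℂ) in 𝓝 (z e b, b),
      p.2 ∈ U' := fun e b hb => continuousAt_snd.eventually (hU'o.mem_nhds hb)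
  refine ⟨B', hB', hB, x₀, U', hcB, fun b hb => (hPB b hb).1, hU'o, hUU, hU'b,
    fun v w b => toSh σ.F hB' hB x₀ (g v w b), fun k => shInc σ.F hB' hB ⁻¹' Uk k,
    fun k => u k ∘ shInc σ.F hB' hB, fun k => v k ∘ shInc σ.F hB' hB, ?_⟩
  exact {
    norm := NormS.shrink σ.F hB' hB x₀ norm hU'o hUU hm
    mem := hm
    inj := inj
    lab := fun j hj b hb => hE.injective (by
      rw [hs j _ (hm b hb), key b hb]; exact lab j hj b (hUU hb))
    labn := fun k j hj b hb => hE.injective (by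
      rw [hs j _ (hm b hb), key b hb]; exact labn k j hj b (hUU hb))
    model := fun k => shrink_model σ hB' hB x₀ ((model k).mono (hUko k) inter_subset_left)
    disj := fun k k' hk => (hUkd k k' hk).preimage _
    node := fun k b hb => by
      have h1 := (hU'1 b hb).1 k
      obtain ⟨h2, h3⟩ := node k b (hUU hb)
      change g _ _ _ ∈ _ at h1
      rw [← key b hb] at h1 h2 h3
      exact ⟨h1, h2, h3⟩
    br := fun k b hb => by
      obtain ⟨h1, h2⟩ := br k b (hUU hb)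
      constructor
      · filter_upwards [h1, hev (eK k, true) b hb] with p hp hp'
        rw [← key p.2 hp'] at hp
        exact hp
      · filter_upwards [h2, hev (eK k, false) b hb] with p hp hp'
        rw [← key p.2 hp'] at hp
        exact hp
    inU := fun k j hj b hb => by
      have hb' : b ∈ B' := hb
      have h1 := (hPB b hb').2.1 k j hj
      obtain ⟨h2, h3⟩ := inU k j hj b (hB hb')
      rw [← hs j b hb'] at h1 h2 h3
      exact ⟨h1, h2, h3⟩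
    off := fun k j hj b hb => by
      have hb' : b ∈ B' := hb
      have h1 := (hPB b hb').2.2 k j hj
      rw [← hs j b hb'] at h1
      exact h1 }

/-- Stability after a shrink of the base. -/
theorem Stb.shrink {σ : State X₀ P ∅} (h : Stb σ) (B' : Set (Fin m → ℂ)) (hB' : IsOpen B')
    (hB : B' ⊆ σ.F.B) (x₀ : (σ.F.shrink B' hB' hB).S.X) : Stb (σ.shrink B' hB' hB x₀) := by
  intro b hb
  have hb : b ∈ B' := hb
  refine (h b (hB hb)).shrink (hB' := hB') (hB := hB) hb ?_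
  rintro x ⟨i, e⟩
  refine ⟨i, PFam.inc_emb.injective ?_⟩
  change σ.F.inc (σ.F.rsec x₀ (σ.s i) b) = σ.F.inc x
  rw [PFam.inc_rsec (σ.sec i) hb, e]

/-- Stability of the initial state. -/
theorem Stb.init {F : PFam m} {P : L → (Fin m → ℂ) → F.S.X} {hP : ∀ j, IsSec F.S F.B (P j)}
    (h : ∀ b ∈ F.B, H949.NoFld F.S b ∅) : Stb (State.init F P hP) := by
  intro b hb
  exact (h b hb).mono (empty_subset _)

end Vale.Agent.P273.H591

end
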