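import Vale.Agent.P273.H395.Norm
import Vale.Agent.P273.H183.Start
import Vale.Agent.P273.H837.Proj

/-!
The family of the curves `y ^ 2 = f(x)` over the locus where `f` is the square of a cubic with
simple roots `e_0, e_1, e_2`: its fibre is two projective lines glued at `e_0, e_1, e_2`, and
`w ↦ (w, ± (w - e_0) (w - e_1) (w - e_2))` is the normalization.
-/

noncomputable section

namespace Vale.Agent.P273.H591

open Set Sum Filter H183 H837 H395 Topology
open scoped Topology ComplexConjugate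

/-- Continuity at a finite point of the projective line. -/
theorem continuousAt_coe {Y Z : Type*} [TopologicalSpace Y] [TopologicalSpace Z]
    {F : OnePoint ℂ × Y → Z} {x : ℂ} {b : Y}
    (h : ContinuousAt (fun u : ℂ × Y => F ((u.1 : OnePoint ℂ), u.2)) (x, b)) :
    ContinuousAt F ((x : OnePoint ℂ), b) :=
  ((OnePoint.isOpenEmbedding_coe.prodMap Topology.IsOpenEmbedding.id).continuousAt_iff
    (f := Prod.map ((↑) : ℂ → OnePoint ℂ) (id : Y → Y)) (x := (x, b))).1 h

/-- Continuity at the infinite point of the projective line. -/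
theorem continuousAt_infty {Y Z : Type*} [TopologicalSpace Y] [TopologicalSpace Z]
    {F : OnePoint ℂ × Y → Z} {b : Y}
    (h : ContinuousAt (fun u : ℂ × Y => F (inf u.1, u.2)) (0, b)) :
    ContinuousAt F (OnePoint.infty, b) := by
  have h1 := ((isOpenEmbedding_inf.prodMap Topology.IsOpenEmbedding.id).continuousAt_iff
    (f := Prod.map inf (id : Y → Y)) (g := F) (x := ((0 : ℂ), b))).1 h
  simpa [inf_zero] using h1

/-- Every point of the projective line is finite or infinite. -/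
theorem onePoint_cases (w : OnePoint ℂ) : (∃ x : ℂ, w = x) ∨ w = OnePoint.infty := by
  induction w using OnePoint.rec with
  | infty => exact Or.inr rfl
  | coe x => exact Or.inl ⟨x, rfl⟩

/-- The sign of a sheet. -/
def sg (s : Bool) : ℂ := if s then -1 else 1

theorem sg_sq (s : Bool) : sg s ^ 2 = 1 := by cases s <;> simp [sg]

theorem sg_inj {s s' : Bool} (h : sg s = sg s') : s = s' := by
  cases s <;> cases s' <;> simp [sg] at h ⊢ <;> norm_num at h

theorem sg_not (s : Bool) : sg (!s) = -sg s := by cases s <;> simp [sg]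

variable {m m' : ℕ} {L : Type} [IsEmpty L] {B : Set (Fin m → ℂ)}
  {a : (Fin m → ℂ) → Fin 6 → ℂ} {U : Set (Fin m' → ℂ)} {φ : (Fin m' → ℂ) → Fin m → ℂ}
  {e : Fin 3 → (Fin m' → ℂ) → ℂ}

/-- The cubic. -/
def Gc (e : Fin 3 → (Fin m' → ℂ) → ℂ) (b : Fin m' → ℂ) (x : ℂ) : ℂ :=
  (x - e 0 b) * (x - e 1 b) * (x - e 2 b)

/-- The reversed cubic. -/
def Gr (e : Fin 3 → (Fin m' → ℂ) → ℂ) (b : Fin m' → ℂ) (w : ℂ) : ℂ :=
  (1 - w * e 0 b) * (1 - w * e 1 b) * (1 - w * e 2 b)

theorem Gr_eq (e : Fin 3 → (Fin m' → ℂ) → ℂ) (b : Fin m' → ℂ) {w : ℂ} (hw : w ≠ 0) :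
    Gc e b w⁻¹ / w⁻¹ ^ 3 = Gr e b w := by
  simp only [Gc, Gr]; field_simp

theorem Gr_zero (e : Fin 3 → (Fin m' → ℂ) → ℂ) (b : Fin m' → ℂ) : Gr e b 0 = 1 := by simp [Gr]

theorem Gc_eq_zero {b : Fin m' → ℂ} {x : ℂ} : Gc e b x = 0 ↔ ∃ k, x = e k b := by
  simp [Gc, mul_eq_zero, sub_eq_zero, Fin.exists_fin_succ, or_assoc]

theorem sw_sq {c : Fin 6 → ℂ} {b : Fin m' → ℂ} (h : ∀ x, sx c x = Gc e b x ^ 2) (w : ℂ) :
    sw c w = Gr e b w ^ 2 := by
  by_cases hw : w = 0
  · subst hw; simp [sw, Gr]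
  · have h1 := h w⁻¹
    rw [sx_inv c hw] at h1
    rw [← Gr_eq e b hw]
    have h6 : w ^ 6 ≠ 0 := pow_ne_zero 6 hw
    have : sw c w = Gc e b w⁻¹ ^ 2 * w ^ 6 := by rw [← h1]; field_simp
    rw [this]
    field_simp

/-- The normalization in ambient coordinates. -/
def gA (φ : (Fin m' → ℂ) → Fin m → ℂ) (e : Fin 3 → (Fin m' → ℂ) → ℂ) (s : Bool) (w : OnePoint ℂ)
    (b : Fin m' → ℂ) : (Fin m → ℂ) × ℂ × ℂ × ℂ × ℂ :=
  w.elim (emb' (φ b, 0, sg s)) fun x => emb (φ b, x, sg s * Gc e b x)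

theorem gA_coe (s : Bool) (x : ℂ) (b : Fin m' → ℂ) :
    gA φ e s x b = emb (φ b, x, sg s * Gc e b x) := rfl

theorem gA_inf (s : Bool) (t : ℂ) (b : Fin m' → ℂ) :
    gA φ e s (inf t) b = emb' (φ b, t, sg s * Gr e b t) := by
  by_cases ht : t = 0
  · subst ht
    rw [inf_zero, Gr_zero, mul_one]; rfl
  · rw [inf, if_neg ht, gA_coe, ← emb'_tr (z := (φ b, t⁻¹, sg s * Gc e b t⁻¹)) (inv_ne_zero ht)]
    simp only [tr, inv_inv]
    rw [mul_div_assoc, Gr_eq e b ht]

theorem gA_mem {s : Bool} {w : OnePoint ℂ} {b : Fin m' → ℂ} (hB : φ b ∈ B)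
    (h : ∀ x, sx (a (φ b)) x = Gc e b x ^ 2) : gA φ e s w b ∈ tot B a := by
  rcases onePoint_cases w with ⟨x, rfl⟩ | rfl
  · refine Or.inl ⟨_, ⟨hB, ?_⟩, rfl⟩
    change (sg s * Gc e b x) ^ 2 = sx (a (φ b)) x
    rw [h, mul_pow, sg_sq, one_mul]
  · refine Or.inr ⟨_, ⟨hB, ?_⟩, rfl⟩
    change sg s ^ 2 = sw (a (φ b)) 0
    rw [sw_sq h, Gr_zero, sg_sq, one_pow]

open Classical in
/-- The normalization. -/
def gst (P₀ : tot B a) (φ : (Fin m' → ℂ) → Fin m → ℂ) (e : Fin 3 → (Fin m' → ℂ) → ℂ) (s : Bool)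
    (w : OnePoint ℂ) (b : Fin m' → ℂ) : tot B a :=
  if h : gA φ e s w b ∈ tot B a then ⟨gA φ e s w b, h⟩ else P₀

/-- The vertices of the half-edges. -/
def hst (L : Type) [IsEmpty L] : (Fin 3 × Bool) ⊕ L → Bool := Sum.elim Prod.snd isEmptyElim

/-- The positions of the half-edges. -/
def zst (L : Type) [IsEmpty L] (e : Fin 3 → (Fin m' → ℂ) → ℂ) :
    (Fin 3 × Bool) ⊕ L → (Fin m' → ℂ) → OnePoint ℂ :=
  Sum.elim (fun p b => (e p.1 b : OnePoint ℂ)) isEmptyElim

section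

variable (P₀ : tot B a) (hB : ∀ b ∈ U, φ b ∈ B)
  (hsx : ∀ b ∈ U, ∀ x, sx (a (φ b)) x = Gc e b x ^ 2)

include hB hsx

theorem gst_val {s : Bool} {w : OnePoint ℂ} {b : Fin m' → ℂ} (hb : b ∈ U) :
    (gst P₀ φ e s w b).1 = gA φ e s w b := by
  rw [gst, dif_pos (gA_mem (hB b hb) (hsx b hb))]

theorem gst_coe {s : Bool} {x : ℂ} {b : Fin m' → ℂ} (hb : b ∈ U) :
    gst P₀ φ e s x b ∈ (aff : Set (tot B a)) ∧
      cA (gst P₀ φ e s x b) = (φ b, x, sg s * Gc e b x) := by
  have h := gst_val P₀ hB hsx (s := s) (w := (x : OnePoint ℂ)) hb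
  constructor
  · change (gst P₀ φ e s x b).1.2.1 ≠ 0
    rw [h]; exact emb_ne _
  · change crd (gst P₀ φ e s x b).1 = _
    rw [h, gA_coe, crd_emb]

theorem gst_inf {s : Bool} {t : ℂ} {b : Fin m' → ℂ} (hb : b ∈ U) :
    gst P₀ φ e s (inf t) b ∈ (far : Set (tot B a)) ∧
      cF (gst P₀ φ e s (inf t) b) = (φ b, t, sg s * Gr e b t) := by
  have h := gst_val P₀ hB hsx (s := s) (w := inf t) hb
  constructor
  · change (gst P₀ φ e s (inf t) b).1.2.1 ≠ 1
    rw [h, gA_inf]; exact emb'_ne _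
  · change crd' (gst P₀ φ e s (inf t) b).1 = _
    rw [h, gA_inf, crd'_emb']

theorem gst_infty {s : Bool} {b : Fin m' → ℂ} (hb : b ∈ U) :
    gst P₀ φ e s OnePoint.infty b ∈ (far : Set (tot B a)) ∧
      gst P₀ φ e s OnePoint.infty b ∉ (aff : Set (tot B a)) ∧
      cF (gst P₀ φ e s OnePoint.infty b) = (φ b, 0, sg s) := by
  have h := gst_inf P₀ hB hsx (s := s) (t := 0) hb
  rw [inf_zero, Gr_zero, mul_one] at h
  refine ⟨h.1, ?_, h.2⟩
  rw [aff_iff h.1, wC, h.2]
  simp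

theorem gst_cont (hU : IsOpen U) (hφ : ∀ b ∈ U, AnalyticAt ℂ φ b)
    (he : ∀ k, ∀ b ∈ U, AnalyticAt ℂ (e k) b) (s : Bool) {w : OnePoint ℂ} {b : Fin m' → ℂ}
    (hb : b ∈ U) :
    ContinuousAt (fun u : OnePoint ℂ × (Fin m' → ℂ) => gst P₀ φ e s u.1 u.2) (w, b) := by
  have hcφ : ContinuousAt φ b := (hφ b hb).continuousAt
  have hce : ∀ k, ContinuousAt (e k) b := fun k => (he k b hb).continuousAt
  rw [Topology.IsInducing.subtypeVal.continuousAt_iff]
  have hev : ∀ᶠ u : OnePoint ℂ × (Fin m' → ℂ) in 𝓝 (w, b),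
      gA φ e s u.1 u.2 = (Subtype.val ∘ fun u : OnePoint ℂ × (Fin m' → ℂ) =>
        gst P₀ φ e s u.1 u.2) u := by
    have : ∀ᶠ u : OnePoint ℂ × (Fin m' → ℂ) in 𝓝 (w, b), u.2 ∈ U :=
      continuousAt_snd.eventually (hU.mem_nhds hb)
    filter_upwards [this] with u hu
    exact (gst_val P₀ hB hsx hu).symm
  refine ContinuousAt.congr ?_ hev
  have hc2 : ∀ x : ℂ, ContinuousAt (fun u : ℂ × (Fin m' → ℂ) => φ u.2) (x, b) := fun x =>
    ContinuousAt.comp (f := Prod.snd) (g := φ) hcφ continuousAt_snd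
  have hek : ∀ (k : Fin 3) (x : ℂ), ContinuousAt (fun u : ℂ × (Fin m' → ℂ) => e k u.2) (x, b) :=
    fun k x => ContinuousAt.comp (f := Prod.snd) (g := e k) (hce k) continuousAt_snd
  rcases onePoint_cases w with ⟨x, rfl⟩ | rfl
  · refine continuousAt_coe (F := fun u : OnePoint ℂ × (Fin m' → ℂ) => gA φ e s u.1 u.2) ?_
    change ContinuousAt (fun u : ℂ × (Fin m' → ℂ) => emb (φ u.2, u.1, sg s * Gc e u.2 u.1)) (x, b)
    refine ContinuousAt.comp (g := emb)
      (f := fun u : ℂ × (Fin m' → ℂ) => (φ u.2, u.1, sg s * Gc e u.2 u.1))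
      continuous_emb.continuousAt ?_
    refine (hc2 x).prodMk (continuousAt_fst.prodMk (continuousAt_const.mul ?_))
    unfold Gc
    exact ((continuousAt_fst.sub (hek 0 x)).mul (continuousAt_fst.sub (hek 1 x))).mul
      (continuousAt_fst.sub (hek 2 x))
  · refine continuousAt_infty (F := fun u : OnePoint ℂ × (Fin m' → ℂ) => gA φ e s u.1 u.2) ?_
    have : (fun u : ℂ × (Fin m' → ℂ) => gA φ e s (inf u.1) u.2) =
        emb' ∘ fun u : ℂ × (Fin m' → ℂ) => (φ u.2, u.1, sg s * Gr e u.2 u.1) := by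
      funext u
      rw [gA_inf]; rfl
    rw [this]
    refine ContinuousAt.comp continuous_emb'.continuousAt ?_
    refine (hc2 0).prodMk (continuousAt_fst.prodMk (continuousAt_const.mul ?_))
    unfold Gr
    exact ((continuousAt_const.sub (continuousAt_fst.mul (hek 0 0))).mul
      (continuousAt_const.sub (continuousAt_fst.mul (hek 1 0)))).mul
      (continuousAt_const.sub (continuousAt_fst.mul (hek 2 0)))

theorem gst_hol (hU : IsOpen U) (hφ : ∀ b ∈ U, AnalyticAt ℂ φ b)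
    (he : ∀ k, ∀ b ∈ U, AnalyticAt ℂ (e k) b) {s : Bool} {w : OnePoint ℂ} {b : Fin m' → ℂ}
    (hb : b ∈ U) {f : tot B a → ℂ} (hf : hlo f (gst P₀ φ e s w b)) :
    Hol1 (fun w b => f (gst P₀ φ e s w b)) w b := by
  have hcφ : ∀ x : ℂ, AnalyticAt ℂ (fun u : ℂ × (Fin m' → ℂ) => φ u.2) (x, b) := fun x =>
    AnalyticAt.comp (f := Prod.snd) (g := φ) (hφ b hb) analyticAt_snd
  have hek : ∀ (k : Fin 3) (x : ℂ), AnalyticAt ℂ (fun u : ℂ × (Fin m' → ℂ) => e k u.2) (x, b) :=
    fun k x => AnalyticAt.comp (f := Prod.snd) (g := e k) (he k b hb) analyticAt_snd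
  have hUe : ∀ x : ℂ, ∀ᶠ u : ℂ × (Fin m' → ℂ) in 𝓝 (x, b), u.2 ∈ U := fun x =>
    continuousAt_snd.eventually (hU.mem_nhds hb)
  have hcont := gst_cont P₀ hB hsx hU hφ he s (w := w) hb
  refine ⟨fun x hx => ?_, fun hw => ?_⟩
  · subst hx
    have h0 := gst_coe P₀ hB hsx (s := s) (x := x) hb
    obtain ⟨g, hg, hev⟩ := (hlo_aff h0.1).1 hf
    rw [h0.2] at hg
    have hc : ContinuousAt (fun u : ℂ × (Fin m' → ℂ) => gst P₀ φ e s (u.1 : OnePoint ℂ) u.2)
        (x, b) := ContinuousAt.comp (f := fun u : ℂ × (Fin m' → ℂ) => ((u.1 : OnePoint ℂ), u.2))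
          (g := fun u : OnePoint ℂ × (Fin m' → ℂ) => gst P₀ φ e s u.1 u.2) hcont
          ((OnePoint.continuous_coe.continuousAt.comp continuousAt_fst).prodMk continuousAt_snd)
    have hA : AnalyticAt ℂ (fun u : ℂ × (Fin m' → ℂ) => (φ u.2, u.1, sg s * Gc e u.2 u.1))
        (x, b) := by
      refine (hcφ x).prod (analyticAt_fst.prod (analyticAt_const.mul ?_))
      unfold Gc
      exact ((analyticAt_fst.sub (hek 0 x)).mul (analyticAt_fst.sub (hek 1 x))).mul
        (analyticAt_fst.sub (hek 2 x))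
    refine (AnalyticAt.comp (g := g)
      (f := fun u : ℂ × (Fin m' → ℂ) => (φ u.2, u.1, sg s * Gc e u.2 u.1)) hg hA).congr ?_
    filter_upwards [hc.eventually hev, hUe x] with u hu hu'
    rw [hu, (gst_coe P₀ hB hsx (s := s) (x := u.1) hu').2]
    rfl
  · subst hw
    have h0 := gst_infty P₀ hB hsx (s := s) hb
    obtain ⟨g, hg, hev⟩ := (hlo_far h0.1).1 hf
    rw [h0.2.2] at hg
    have hc : ContinuousAt (fun u : ℂ × (Fin m' → ℂ) => gst P₀ φ e s (inf u.1) u.2)
        (0, b) := ContinuousAt.comp (f := fun u : ℂ × (Fin m' → ℂ) => (inf u.1, u.2))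
          (g := fun u : OnePoint ℂ × (Fin m' → ℂ) => gst P₀ φ e s u.1 u.2)
          (by simpa only [inf_zero] using hcont)
          ((H837.continuous_inf.continuousAt.comp continuousAt_fst).prodMk continuousAt_snd)
    have hA : AnalyticAt ℂ (fun u : ℂ × (Fin m' → ℂ) => (φ u.2, u.1, sg s * Gr e u.2 u.1))
        (0, b) := by
      refine (hcφ 0).prod (analyticAt_fst.prod (analyticAt_const.mul ?_))
      unfold Gr
      exact ((analyticAt_const.sub (analyticAt_fst.mul (hek 0 0))).mul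
        (analyticAt_const.sub (analyticAt_fst.mul (hek 1 0)))).mul
        (analyticAt_const.sub (analyticAt_fst.mul (hek 2 0)))
    refine (AnalyticAt.comp (g := g)
      (f := fun u : ℂ × (Fin m' → ℂ) => (φ u.2, u.1, sg s * Gr e u.2 u.1))
      (by simpa only [Gr_zero, mul_one] using hg) hA).congr ?_
    have hc' : Tendsto (fun u : ℂ × (Fin m' → ℂ) => gst P₀ φ e s (inf u.1) u.2) (𝓝 (0, b))
        (𝓝 (gst P₀ φ e s OnePoint.infty b)) := by
      have := hc.tendsto
      simpa only [inf_zero] using this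
    filter_upwards [hc'.eventually hev, hUe 0] with u hu hu'
    rw [hu, (gst_inf P₀ hB hsx (s := s) (t := u.1) hu').2]
    rfl

/-- **The normalization of the start family over the theta locus.** -/
theorem gst_norm (hU : IsOpen U) (hφ : ∀ b ∈ U, AnalyticAt ℂ φ b)
    (he : ∀ k, ∀ b ∈ U, AnalyticAt ℂ (e k) b) :
    Norm (start L B a) U φ (hst L) (zst L e) (gst P₀ φ e) where
  an := hφ
  mem := hB
  cont s := by
    rintro ⟨w, b⟩ ⟨-, hb⟩
    exact (gst_cont P₀ hB hsx hU hφ he s hb).continuousWithinAt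
  proj b hb s w := by
    change (gst P₀ φ e s w b).1.1 = φ b
    rw [gst_val P₀ hB hsx hb]
    rcases onePoint_cases w with ⟨x, rfl⟩ | rfl <;> rfl
  onto b hb p hp := by
    have hp' : pr p = φ b := hp
    by_cases hpa : p ∈ (aff : Set (tot B a))
    · have h1 := (cA_mem hpa).2
      have h0 : (cA p).1 = φ b := hp'
      rw [h0, hsx b hb] at h1
      have key : ∀ s, (cA p).2.2 = sg s * Gc e b (cA p).2.1 →
          ∃ v w, gst P₀ φ e v w b = p := by
        intro s hs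
        refine ⟨s, (cA p).2.1, ?_⟩
        have h2 := gst_coe P₀ hB hsx (s := s) (x := (cA p).2.1) hb
        refine isAmb_aff.inj h2.1 hpa ?_
        change cA _ = cA p
        rw [h2.2]
        exact Prod.ext h0.symm (Prod.ext rfl hs.symm)
      rcases sq_eq_sq_iff_eq_or_eq_neg.1 h1 with h | h
      · exact key false (by simpa [sg] using h)
      · exact key true (by simpa [sg] using h)
    · have hpf : p ∈ (far : Set (tot B a)) := (mem_aff_or_far p).resolve_left hpa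
      have h1 := (cF_mem hpf).2
      have h0 : (cF p).1 = φ b := hp'
      have hw : (cF p).2.1 = 0 := by
        by_contra h
        exact hpa ((aff_iff hpf).2 h)
      rw [h0, hw, sw_sq (hsx b hb), Gr_zero] at h1
      have key : ∀ s, (cF p).2.2 = sg s → ∃ v w, gst P₀ φ e v w b = p := by
        intro s hs
        refine ⟨s, OnePoint.infty, ?_⟩
        have h2 := gst_infty P₀ hB hsx (s := s) hb
        refine isAmb_far.inj h2.1 hpf ?_
        change cF _ = cF p
        rw [h2.2.2]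
        exact Prod.ext h0.symm (Prod.ext hw.symm hs.symm)
      rcases sq_eq_sq_iff_eq_or_eq_neg.1 h1 with h | h
      · exact key false (by simpa [sg] using h)
      · exact key true (by simpa [sg] using h)
  ident b hb v w v' w' := by
    rcases onePoint_cases w with ⟨x, rfl⟩ | rfl <;> rcases onePoint_cases w' with ⟨x', rfl⟩ | rfl
    · have h1 := gst_coe P₀ hB hsx (s := v) (x := x) hb
      have h2 := gst_coe P₀ hB hsx (s := v') (x := x') hb
      have h3 : gst P₀ φ e v x b = gst P₀ φ e v' x' b ↔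
          x = x' ∧ sg v * Gc e b x = sg v' * Gc e b x' := by
        constructor
        · intro h
          have := h1.2.symm.trans ((congrArg cA h).trans h2.2)
          simpa using this
        · rintro ⟨rfl, h⟩
          refine isAmb_aff.inj h1.1 h2.1 ?_
          change cA _ = cA _
          rw [h1.2, h2.2, h]
      refine h3.trans ?_
      simp only [OnePoint.coe_eq_coe, hst, zst, Sum.elim_inl]
      constructor
      · rintro ⟨rfl, h⟩
        by_cases hG : Gc e b x = 0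
        · obtain ⟨k, hk⟩ := Gc_eq_zero.1 hG
          by_cases hv : v = v'
          · exact Or.inl ⟨hv, rfl⟩
          · refine Or.inr ⟨k, v, ⟨rfl, hk⟩, ?_, hk⟩
            cases v <;> cases v' <;> simp at hv ⊢
        · exact Or.inl ⟨sg_inj (mul_right_cancel₀ hG h), rfl⟩
      · rintro (⟨rfl, rfl⟩ | ⟨k, s, ⟨rfl, rfl⟩, rfl, rfl⟩)
        · exact ⟨rfl, rfl⟩
        · refine ⟨rfl, ?_⟩
          rw [Gc_eq_zero.2 ⟨k, rfl⟩, mul_zero, mul_zero]
    · have h1 := gst_coe P₀ hB hsx (s := v) (x := x) hb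
      have h2 := gst_infty P₀ hB hsx (s := v') hb
      constructor
      · intro h
        exact absurd (h ▸ h1.1) h2.2.1
      · rintro (⟨-, h⟩ | ⟨k, s, -, -, h⟩)
        · exact absurd h (OnePoint.coe_ne_infty _)
        · exact absurd h.symm (OnePoint.coe_ne_infty _)
    · have h1 := gst_coe P₀ hB hsx (s := v') (x := x') hb
      have h2 := gst_infty P₀ hB hsx (s := v) hb
      constructor
      · intro h
        exact absurd (h ▸ h1.1) h2.2.1
      · rintro (⟨-, h⟩ | ⟨k, s, ⟨-, h⟩, -⟩)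
        · exact absurd h.symm (OnePoint.coe_ne_infty _)
        · exact absurd h.symm (OnePoint.coe_ne_infty _)
    · have h1 := gst_infty P₀ hB hsx (s := v) hb
      have h2 := gst_infty P₀ hB hsx (s := v') hb
      constructor
      · intro h
        have := h1.2.2.symm.trans ((congrArg cF h).trans h2.2.2)
        simp only [Prod.mk.injEq, true_and] at this
        exact Or.inl ⟨sg_inj this, rfl⟩
      · rintro (⟨rfl, -⟩ | ⟨k, s, ⟨-, h⟩, -⟩)
        · rfl
        · exact absurd h.symm (OnePoint.coe_ne_infty _)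
  hol b hb s w f hf := gst_hol P₀ hB hsx hU hφ he hb hf
  mark b hb x := isEmptyElim x

end

/-- **Normalization data of the start family over the theta locus** (with its coordinates). -/
theorem start_norm (hU : IsOpen U) (hne : U.Nonempty) (hφ : ∀ b ∈ U, AnalyticAt ℂ φ b)
    (he : ∀ k, ∀ b ∈ U, AnalyticAt ℂ (e k) b) (hB : ∀ b ∈ U, φ b ∈ B)
    (hsx : ∀ b ∈ U, ∀ x, sx (a (φ b)) x = ((x - e 0 b) * (x - e 1 b) * (x - e 2 b)) ^ 2) :
    ∃ g : Bool → OnePoint ℂ → (Fin m' → ℂ) → tot B a,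
      Norm (start L B a) U φ (hst L) (zst L e) g ∧
      (∀ s (x : ℂ), ∀ b ∈ U, g s x b ∈ (aff : Set (tot B a)) ∧ xC (g s x b) = x ∧
        yC (g s x b) = sg s * Gc e b x) ∧
      ∀ s (t : ℂ), ∀ b ∈ U, g s (inf t) b ∈ (far : Set (tot B a)) ∧ wC (g s (inf t) b) = t ∧
        uC (g s (inf t) b) = sg s * Gr e b t := by
  obtain ⟨b₀, hb₀⟩ := hne
  set P₀ : tot B a := ⟨gA φ e false OnePoint.infty b₀, gA_mem (hB b₀ hb₀) (hsx b₀ hb₀)⟩
  refine ⟨gst P₀ φ e, gst_norm P₀ hB hsx hU hφ he, fun s x b hb => ?_, fun s t b hb => ?_⟩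
  · have h := gst_coe P₀ hB hsx (s := s) (x := x) hb
    exact ⟨h.1, by rw [xC, h.2], by rw [yC, h.2]⟩
  · have h := gst_inf P₀ hB hsx (s := s) (t := t) hb
    exact ⟨h.1, by rw [wC, h.2], by rw [uC, h.2]⟩

end Vale.Agent.P273.H591

end
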