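import Vale.Agent.P273.H591.StartGen
import Vale.Agent.P273.H591.StartNorm
import Vale.Agent.P273.H724.Good0
import Vale.Agent.P273.H67.ChooseB
import Vale.Agent.P273.H228.Loop
import Vale.Agent.P273.H728.ExtOf
import Vale.Agent.P273.H949.StartQ

/-!
The invariant `QS` at the start: the family of the curves `y ^ 2 = f(x)` over a region, near a point
where exactly the gaps of `B` vanish.
-/

noncomputable section

namespace Vale.Agent.P273.H591

open Set Filter Topology H183 H837 H395 H948 H724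
open H95 (Region ctr gk gc gcw thA L)
open H888 (Far)

/-! ### The start surface -/

theorem aff_ext {m : ℕ} {B : Set (Fin m → ℂ)} {a : (Fin m → ℂ) → Fin 6 → ℂ} {P Q : tot B a}
    (hP : P ∈ (aff : Set (tot B a))) (hQ : Q ∈ (aff : Set (tot B a))) (h : cA P = cA Q) : P = Q :=
  Subtype.ext (by rw [← emb_cA hP, ← emb_cA hQ, h])

section region

variable {n m' : ℕ} {R : Region} {S : L → Bool} {κ : (Fin n → ℂ) ≃L[ℂ] R.Sp}

/-- The coordinate `X` of the neck `k`. -/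
def uN (κ : (Fin n → ℂ) ≃L[ℂ] R.Sp) (S : L → Bool) (k : Fin 3) (Q : (st0 κ S).X) : ℂ :=
  xC (B := base0 κ S) (a := co0 κ) Q - ctr k + yC (B := base0 κ S) (a := co0 κ) Q /
    gk (R.eps (κ (pr (B := base0 κ S) (a := co0 κ) Q))) k (xC (B := base0 κ S) (a := co0 κ) Q)

/-- The coordinate `Y` of the neck `k`. -/
def vN (κ : (Fin n → ℂ) ≃L[ℂ] R.Sp) (S : L → Bool) (k : Fin 3) (Q : (st0 κ S).X) : ℂ :=
  xC (B := base0 κ S) (a := co0 κ) Q - ctr k - yC (B := base0 κ S) (a := co0 κ) Q /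
    gk (R.eps (κ (pr (B := base0 κ S) (a := co0 κ) Q))) k (xC (B := base0 κ S) (a := co0 κ) Q)

/-- The neck model at the point `(ctr k, 0)`. -/
theorem node_model {Q : tot (base0 κ S) (co0 κ)} (hQ : Q ∈ (aff : Set (tot (base0 κ S) (co0 κ))))
    {k : Fin 3} (hx : xC Q = ctr k) (hy : yC Q = 0) :
    ∃ U : Set (st0 κ S).X, Q ∈ U ∧ IsModel (st0 κ S).π (st0 κ S).hol U (uN κ S k) (vN κ S k)
      (fun b => R.eps (κ b) k) := by
  have hc : pr Q ∈ base0 κ S := pr_mem Q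
  have hko := an_k (κ := κ) (pr Q)
  have hnear : ‖xC Q - ctr k‖ < 1 / 8 := by rw [hx, sub_self, norm_zero]; norm_num
  have hfac : ∀ l, l ≠ k → ‖R.eps (κ (pr Q)) l‖ < 1 * ‖xC Q - ctr l‖ ^ 2 := fun l hl =>
    far_frac (dom_eps hc l) (neck_far hl hnear)
  have h1 : AnalyticAt ℂ (fun w : (Fin n → ℂ) × ℂ => gk (R.eps (κ w.1)) k w.2) (pr Q, xC Q) := by
    refine an_gk' k (fun l => ?_) analyticAt_snd hfac
    have h2 : AnalyticAt ℂ (fun q : Fin n → ℂ => R.eps (κ q) l) (pr Q) :=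
      AnalyticAt.comp (g := fun q : R.Sp => R.eps q l) (an_eps l) hko
    exact AnalyticAt.comp (g := fun q : Fin n → ℂ => R.eps (κ q) l)
      (f := fun w : (Fin n → ℂ) × ℂ => w.1) h2 analyticAt_fst
  have h3 : ∀ᶠ w in 𝓝 ((pr Q, xC Q) : (Fin n → ℂ) × ℂ),
      H183.sx (co0 κ w.1) w.2 = ((w.2 - ctr k) ^ 2 - R.eps (κ w.1) k) *
        gk (R.eps (κ w.1)) k w.2 ^ 2 := by
    have h4 : ∀ᶠ w in 𝓝 ((pr Q, xC Q) : (Fin n → ℂ) × ℂ), ∀ l, l ≠ k → w.2 - ctr l ≠ 0 := by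
      rw [eventually_all]
      intro l
      by_cases hl : l = k
      · exact Eventually.of_forall fun w h => absurd hl h
      · have h5 : ContinuousAt (fun w : (Fin n → ℂ) × ℂ => w.2 - ctr l) (pr Q, xC Q) :=
          continuousAt_snd.sub continuousAt_const
        have h6 : (fun w : (Fin n → ℂ) × ℂ => w.2 - ctr l) (pr Q, xC Q) ≠ 0 :=
          ne_of_frac (hfac l hl)
        exact (h5.eventually_ne h6).mono fun w hw _ => hw
    filter_upwards [h4] with w hw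
    have e1 : H183.sx (co0 κ w.1) w.2 = H95.sx (thA (R.eps (κ w.1))) w.2 := (H724.sx_eq _ _).symm
    rw [e1, sx_thA, prod_neck hw]
  obtain ⟨U, g1, -, g2⟩ := start_neckModel (B := base0 κ S) (a := co0 κ) base0_open
    (fun b _ => co0_an b) co0_K (e := fun _ => ctr k) (ε := fun b => R.eps (κ b) k)
    (G := fun w : (Fin n → ℂ) × ℂ => gk (R.eps (κ w.1)) k w.2) hQ analyticAt_const
    (AnalyticAt.comp (g := fun q : R.Sp => R.eps q k) (an_eps k) hko) hy h1 (gk_ne hfac) h3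
  exact ⟨U, g1, g2⟩

variable [Nonempty (tot (base0 κ S) (co0 κ))]

theorem P0_cA (hS : Far R S) {j : L} {k : Fin 3} (hj : R.pl j = Sum.inl k) {b : Fin n → ℂ}
    (hb : b ∈ base0 κ S) : P0 κ S j b ∈ (aff : Set (tot (base0 κ S) (co0 κ))) ∧
      cA (P0 κ S j b : tot (base0 κ S) (co0 κ)) = (b, z0 κ j b, v0 κ S j b) := by
  have hm : (b, z0 κ j b, v0 κ S j b) ∈ Zaff (base0 κ S) (co0 κ) := by
    refine ⟨hb, ?_⟩
    have := sq0 hS j hb
    rwa [neck_S hS hj, pol_false] at this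
  rw [P0_neck hS hj]
  exact ⟨secA_mem hm, cA_secA hm⟩

theorem uN_P0 (hS : Far R S) {j : L} {k : Fin 3} (hj : R.pl j = Sum.inl k) {b : Fin n → ℂ}
    (hb : b ∈ base0 κ S) : uN κ S k (P0 κ S j b) = R.XX (κ b) k (R.rk j) ∧
      vN κ S k (P0 κ S j b) = R.YY (κ b) k (R.rk j) := by
  obtain ⟨-, h1⟩ := P0_cA hS hj hb
  have e1 : pr (P0 κ S j b : tot (base0 κ S) (co0 κ)) = b := congrArg Prod.fst h1
  have e2 : xC (P0 κ S j b : tot (base0 κ S) (co0 κ)) = z0 κ j b :=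
    congrArg (fun z : (Fin n → ℂ) × ℂ × ℂ => z.2.1) h1
  have e3 : yC (P0 κ S j b : tot (base0 κ S) (co0 κ)) = v0 κ S j b :=
    congrArg (fun z : (Fin n → ℂ) × ℂ × ℂ => z.2.2) h1
  have e4 : z0 κ j b = ctr k + (R.XX (κ b) k (R.rk j) + R.YY (κ b) k (R.rk j)) / 2 :=
    pos_neck (κ b) hj
  have e5 : v0 κ S j b = gk (R.eps (κ b)) k (z0 κ j b) *
      (R.XX (κ b) k (R.rk j) - R.YY (κ b) k (R.rk j)) / 2 := sht_neck (κ b) hj
  have h0 : gk (R.eps (κ b)) k (z0 κ j b) ≠ 0 := gk_ne fun l hl => neck_cond hb hj l hl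
  have e6 : v0 κ S j b / gk (R.eps (κ b)) k (z0 κ j b) =
      (R.XX (κ b) k (R.rk j) - R.YY (κ b) k (R.rk j)) / 2 := by
    rw [e5]; field_simp
  unfold uN vN
  rw [e1, e2, e3, e6, e4]
  constructor <;> ring

end region

/-! ### The normalization at the start -/

section start

open H728 (rg mz)

variable {n m' : ℕ} {T : H93.RB} {S : L → Bool} {κ : (Fin n → ℂ) ≃L[ℂ] (rg T).Sp}

theorem rg_le (k : Fin 3) : ∀ b ∈ T.B k, b ≤ (rg T).n k := fun b hb => T.sub k b hb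

theorem eps_zero {p : (rg T).Sp} (hc : ∀ g : (rg T).Gap, p.1 g = 0 ↔ (g.2 : ℕ) ∈ T.B g.1)
    (k : Fin 3) : (rg T).eps p k = 0 := by
  obtain ⟨b, hb⟩ := T.ne k
  rw [H67.eps_eq]
  refine Finset.prod_eq_zero (i := b) (Finset.mem_range.2 ?_)
    ((H67.tau_eq_zero_iff hc rg_le k b).2 hb)
  have := rg_le k b hb
  omega

theorem csq_one : H95.csq 1 = 1 := by
  unfold H95.csq
  exact Complex.one_cpow _

theorem gk_zero (k : Fin 3) (x : ℂ) :
    (x - ctr 0) * (x - ctr 1) * (x - ctr 2) = (x - ctr k) * gk (fun _ => 0) k x := by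
  have h1 : ∀ z : ℂ, H95.csq (1 - 0 / z) = 1 := fun z => by rw [zero_div, sub_zero, csq_one]
  unfold H95.gk
  rw [Fin.prod_univ_three]
  simp only [h1, mul_one]
  fin_cases k <;> simp <;> ring

theorem co_sx {b : Fin n → ℂ} (h : ∀ k, (rg T).eps (κ b) k = 0) (x : ℂ) :
    H183.sx (co0 κ b) x = ((x - ctr 0) * (x - ctr 1) * (x - ctr 2)) ^ 2 := by
  rw [← H724.sx_eq]
  change H95.sx (thA ((rg T).eps (κ b))) x = _
  rw [sx_thA, Fin.prod_univ_three, h, h, h]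
  ring

theorem ctr_inj {k l : Fin 3} (h : ctr k = ctr l) : k = l := by
  by_contra hkl
  have := ctr_sub k l (fun e => hkl e.symm)
  rw [h, sub_self, norm_zero] at this
  norm_num at this

/-- The centres, as functions. -/
def ec (k : Fin 3) (_ : Fin m' → ℂ) : ℂ := ctr k

/-- The normalization of the start family. -/
theorem start_normS {U : Set (Fin m' → ℂ)} (hU : IsOpen U) (hne : U.Nonempty)
    {φ : (Fin m' → ℂ) → Fin n → ℂ} (hφ : ∀ b ∈ U, AnalyticAt ℂ φ b)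
    (hB : ∀ b ∈ U, φ b ∈ base0 κ S) (h0 : ∀ b ∈ U, ∀ k, (rg T).eps (κ (φ b)) k = 0) :
    ∃ g : Bool → OnePoint ℂ → (Fin m' → ℂ) → tot (base0 κ S) (co0 κ),
      NormS (st0 κ S) U φ (fun y : Fin 3 × Bool => y.2)
        (fun y _ => ((ctr y.1 : ℂ) : OnePoint ℂ)) g ∧
      (∀ s (x : ℂ), ∀ b ∈ U, g s x b ∈ (aff : Set (tot (base0 κ S) (co0 κ))) ∧
        cA (g s x b) = (φ b, x, sg s * Gc ec b x)) ∧
      ∀ s (t : ℂ), ∀ b ∈ U, g s (inf t) b ∈ (far : Set (tot (base0 κ S) (co0 κ))) ∧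
        cF (g s (inf t) b) = (φ b, t, sg s * Gr ec b t) := by
  obtain ⟨g, hN, h1, h2⟩ := start_norm (L := Empty) (B := base0 κ S) (a := co0 κ) (e := ec)
    hU hne hφ (fun k b _ => analyticAt_const) hB (fun b hb x => co_sx (h0 b hb) x)
  have hpr : ∀ s w, ∀ b ∈ U, pr (g s w b) = φ b := fun s w b hb => hN.proj b hb s w
  refine ⟨g, ?_, fun s x b hb => ?_, fun s t b hb => ?_⟩
  · exact {
      sep := fun b _ y y' e1 e2 => Prod.ext (ctr_inj (OnePoint.coe_injective e2)) e1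
      zc := fun y => continuousOn_const
      cont := hN.cont
      proj := hN.proj
      onto := hN.onto
      ident := hN.ident
      hol := hN.hol }
  · obtain ⟨k1, k2, k3⟩ := h1 s x b hb
    exact ⟨k1, by rw [cA_eq, hpr s x b hb, k2, k3]⟩
  · obtain ⟨k1, k2, k3⟩ := h2 s t b hb
    exact ⟨k1, by rw [cF_eq, hpr s _ b hb, k2, k3]⟩

/-- The branches at the nodes. -/
theorem start_branch {U : Set (Fin m' → ℂ)} {φ : (Fin m' → ℂ) → Fin n → ℂ}
    (h0 : ∀ b ∈ U, ∀ k, (rg T).eps (κ (φ b)) k = 0)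
    {g : Bool → OnePoint ℂ → (Fin m' → ℂ) → tot (base0 κ S) (co0 κ)}
    (hg : ∀ s (x : ℂ), ∀ b ∈ U, g s x b ∈ (aff : Set (tot (base0 κ S) (co0 κ))) ∧
        cA (g s x b) = (φ b, x, sg s * Gc ec b x)) {b : Fin m' → ℂ} (hb : b ∈ U) (k : Fin 3)
    {x : ℂ} (hx : ‖x - ctr k‖ < 1 / 8) :
    vN κ S k (g false x b) = 0 ∧ uN κ S k (g true x b) = 0 := by
  have key : ∀ s, pr (g s x b) = φ b ∧ xC (g s x b) = x ∧ yC (g s x b) = sg s * Gc ec b x := by
    intro s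
    obtain ⟨-, h1⟩ := hg s x b hb
    rw [cA_eq] at h1
    exact ⟨congrArg Prod.fst h1, congrArg (fun z => z.2.1) h1, congrArg (fun z => z.2.2) h1⟩
  have he : (rg T).eps (κ (φ b)) = fun _ => 0 := funext (h0 b hb)
  have hG : Gc ec b x = (x - ctr k) * gk (fun _ => 0) k x := gk_zero k x
  have hk : gk (fun _ => 0) k x ≠ 0 := gk_ne fun l hl => by
    have := neck_far hl hx
    rw [norm_zero]; positivity
  constructor
  · obtain ⟨h1, h2, h3⟩ := key false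
    unfold vN
    rw [h1, h2, h3, he, hG, show sg false = 1 from rfl]
    field_simp
    ring
  · obtain ⟨h1, h2, h3⟩ := key true
    unfold uN
    rw [h1, h2, h3, he, hG, show sg true = -1 from rfl]
    field_simp
    ring

/-- Near the centre of a neck. -/
theorem near_ctr (k : Fin 3) (b₀ : Fin m' → ℂ) :
    ∀ᶠ p : OnePoint ℂ × (Fin m' → ℂ) in 𝓝 (((ctr k : ℂ) : OnePoint ℂ), b₀),
      ∃ x : ℂ, p.1 = x ∧ ‖x - ctr k‖ < 1 / 8 := by
  have h1 : IsOpen (((↑) : ℂ → OnePoint ℂ) '' Metric.ball (ctr k) (1 / 8)) :=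
    OnePoint.isOpenEmbedding_coe.isOpenMap _ Metric.isOpen_ball
  have h2 : ((ctr k : ℂ) : OnePoint ℂ) ∈ (((↑) : ℂ → OnePoint ℂ) '' Metric.ball (ctr k) (1 / 8)) :=
    mem_image_of_mem _ (Metric.mem_ball_self (by norm_num))
  have h3 : Tendsto (Prod.fst : OnePoint ℂ × (Fin m' → ℂ) → OnePoint ℂ)
      (𝓝 (((ctr k : ℂ) : OnePoint ℂ), b₀)) (𝓝 ((ctr k : ℂ) : OnePoint ℂ)) := continuousAt_fst
  filter_upwards [h3.eventually (h1.mem_nhds h2)] with p hp
  obtain ⟨x, hx, e⟩ := hp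
  exact ⟨x, e.symm, by rwa [Metric.mem_ball, dist_eq_norm] at hx⟩

end start

end Vale.Agent.P273.H591

end
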