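import Vale.Agent.P273.H591.QS

/-!
One step of the insertion of projective lines at the nodes of the necks, over an open stratum.
-/

noncomputable section

namespace Vale.Agent.P273.H591

open Set Filter Topology H183 H837 H395 H948

variable {V E K L : Type} {m m' : ℕ}

/-- A model outside the centre of a modification. -/
theorem model_off {S N' : Surf m} (M : Modif S N') {Uc : Set S.X} {u v : S.X → ℂ}
    {t : (Fin m → ℂ) → ℂ} (h : IsModel S.π S.hol Uc u v t) (hd : Disjoint Uc M.Z) :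
    IsModel M.T.π M.T.hol (M.r ⁻¹' Uc) (fun x => u (M.r x)) (fun x => v (M.r x)) t := by
  have hnot : ∀ x ∈ M.r ⁻¹' Uc, M.r x ∉ M.Z := fun x hx hz => disjoint_left.1 hd hx hz
  have hA : ∀ x ∈ M.r ⁻¹' Uc, ∃ q : M.A.X, M.ιA q = x := fun x hx => by
    obtain ⟨q, hq⟩ := M.mem_rangeA.2 (hnot x hx)
    exact ⟨q, hq⟩
  have hE : ∀ x, Emap M.T.π (fun x => u (M.r x)) (fun x => v (M.r x)) x = Emap S.π u v (M.r x) := by
    intro x
    simp only [Emap, M.πr]
  have hnb : ∀ q : M.A.X, map M.r (𝓝 (M.ιA q)) = 𝓝 (M.r (M.ιA q)) := by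
    intro q
    rw [← M.embA.map_nhds_eq, Filter.map_map]
    have : M.r ∘ M.ιA = M.incA := funext M.rA
    rw [this, M.incA_emb.map_nhds_eq, M.rA]
  refine ⟨h.isOpen.preimage M.cont_r, ?_, ?_, ?_, ?_, ?_⟩
  · intro x hx y hy e
    rw [hE, hE] at e
    have h1 := h.inj hx hy e
    exact M.r_inj (hnot x hx) (hnot y hy) h1
  · intro y hy
    rw [h.eqn _ hy, M.πr]
  · intro y hy
    rw [← M.πr]
    exact h.an _ hy
  · intro y hy
    obtain ⟨q, rfl⟩ := hA y hy
    have h1 : Emap M.T.π (fun x => u (M.r x)) (fun x => v (M.r x)) = Emap S.π u v ∘ M.r :=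
      funext hE
    rw [h1, ← Filter.map_map, hnb q, h.nhds _ hy]
    rfl
  · intro y hy f
    obtain ⟨q, rfl⟩ := hA y hy
    rw [M.holA, M.holA', hE]
    have hy' : M.incA q ∈ Uc := hy
    constructor
    · rintro ⟨f', hf', e⟩
      obtain ⟨k, hk, hk'⟩ := (h.hol _ hy' f').1 hf'
      refine ⟨k, hk, ?_⟩
      rw [← M.embA.map_nhds_eq]
      have h2 : ∀ᶠ q' in 𝓝 q, f' (M.incA q') = (k ∘ Emap S.π u v) (M.incA q') :=
        M.incA_emb.continuous.continuousAt.eventually hk'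
      refine Filter.eventually_map.2 ?_
      filter_upwards [e, h2] with q' h3 h4
      rw [Function.comp_apply, hE]
      exact h3.trans h4
    · rintro ⟨k, hk, hk'⟩
      refine ⟨k ∘ Emap S.π u v, (h.hol _ hy' _).2 ⟨k, hk, EventuallyEq.rfl⟩, ?_⟩
      have h2 := (M.embA.continuous.continuousAt (x := q)).eventually hk'
      filter_upwards [h2] with q' h3
      rw [Function.comp_apply, h3, Function.comp_apply, hE]
      rfl

variable {X₀ : Surf m} {P : L → (Fin m → ℂ) → X₀.X} {σ : State X₀ P ∅}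
    {U : Set (Fin m' → ℂ)} {φ : (Fin m' → ℂ) → Fin m → ℂ} {h : E × Bool → V}
    {z : E × Bool → (Fin m' → ℂ) → OnePoint ℂ} {g : V → OnePoint ℂ → (Fin m' → ℂ) → σ.F.S.X}
    {eK : K → E} {at' : K → Set L} {vL : L → V} {zL : L → (Fin m' → ℂ) → OnePoint ℂ}
    {Uc : K → Set σ.F.S.X} {u v : K → σ.F.S.X → ℂ} {t : K → (Fin m → ℂ) → ℂ}
    {uf vf : K → L → (Fin m → ℂ) → ℂ}

namespace QS

theorem t_eq (Q : QS σ U φ h z g eK at' vL zL Uc u v t uf vf) {k : K} {j : L} (hj : j ∈ at' k)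
    {b : Fin m → ℂ} (hb : b ∈ σ.F.B) : t k b = uf k j b * vf k j b := by
  obtain ⟨h1, h2, h3⟩ := Q.inU k j hj b hb
  have h4 := (Q.model k).eqn _ h1
  rw [h2, h3, (σ.sec j b hb).1] at h4
  exact h4.symm

theorem an_uf (Q : QS σ U φ h z g eK at' vL zL Uc u v t uf vf) {k : K} {j : L} (hj : j ∈ at' k)
    {b : Fin m → ℂ} (hb : b ∈ σ.F.B) : AnalyticAt ℂ (uf k j) b := by
  obtain ⟨h1, -, -⟩ := Q.inU k j hj b hb
  refine ((σ.sec j b hb).2.2 (u k) ((Q.model k).hol_u h1)).congr ?_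
  filter_upwards [σ.F.openB.mem_nhds hb] with b' hb'
  exact (Q.inU k j hj b' hb').2.1

theorem an_vf (Q : QS σ U φ h z g eK at' vL zL Uc u v t uf vf) {k : K} {j : L} (hj : j ∈ at' k)
    {b : Fin m → ℂ} (hb : b ∈ σ.F.B) : AnalyticAt ℂ (vf k j) b := by
  obtain ⟨h1, -, -⟩ := Q.inU k j hj b hb
  refine ((σ.sec j b hb).2.2 (v k) ((Q.model k).hol_v h1)).congr ?_
  filter_upwards [σ.F.openB.mem_nhds hb] with b' hb'
  exact (Q.inU k j hj b' hb').2.2

/-- The centre is closed: it is the image of a section. -/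
theorem centre_closed (Q : QS σ U φ h z g eK at' vL zL Uc u v t uf vf) {k : K} {j : L}
    (hj : j ∈ at' k) :
    IsClosed {x | x ∈ Uc k ∧ u k x = 0 ∧ v k x = 0 ∧ uf k j (σ.F.S.π x) = 0 ∧
      vf k j (σ.F.S.π x) = 0} := by
  have hsc : Continuous fun x => σ.s j (σ.F.S.π x) := by
    rw [continuous_iff_continuousAt]
    intro x
    exact ContinuousAt.comp (g := σ.s j) (σ.sec j _ (σ.F.mem x)).2.1
      σ.F.S.cont_π.continuousAt
  have hu : Continuous fun x => uf k j (σ.F.S.π x) := by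
    rw [continuous_iff_continuousAt]
    intro x
    exact ContinuousAt.comp (g := uf k j) (Q.an_uf hj (σ.F.mem x)).continuousAt
      σ.F.S.cont_π.continuousAt
  have hv : Continuous fun x => vf k j (σ.F.S.π x) := by
    rw [continuous_iff_continuousAt]
    intro x
    exact ContinuousAt.comp (g := vf k j) (Q.an_vf hj (σ.F.mem x)).continuousAt
      σ.F.S.cont_π.continuousAt
  have h1 : {x | x ∈ Uc k ∧ u k x = 0 ∧ v k x = 0 ∧ uf k j (σ.F.S.π x) = 0 ∧
      vf k j (σ.F.S.π x) = 0} = {x | x = σ.s j (σ.F.S.π x)} ∩ ({x | uf k j (σ.F.S.π x) = 0} ∩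
      {x | vf k j (σ.F.S.π x) = 0}) := by
    ext x
    obtain ⟨h1, h2, h3⟩ := Q.inU k j hj _ (σ.F.mem x)
    constructor
    · rintro ⟨h4, h5, h6, h7, h8⟩
      refine ⟨(Q.model k).inj h4 h1 ?_, h7, h8⟩
      simp only [Emap]
      rw [(σ.sec j _ (σ.F.mem x)).1, h2, h3, h5, h6, h7, h8]
    · rintro ⟨h4, h5, h6⟩
      have h4 : x = σ.s j (σ.F.S.π x) := h4
      have h5 : uf k j (σ.F.S.π x) = 0 := h5
      have h6 : vf k j (σ.F.S.π x) = 0 := h6
      refine ⟨h4 ▸ h1, ?_, ?_, h5, h6⟩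
      · rw [h4, h2, h5]
      · rw [h4, h3, h6]
  rw [h1]
  exact (isClosed_eq continuous_id hsc).inter
    ((isClosed_eq hu continuous_const).inter (isClosed_eq hv continuous_const))

open Classical in
/-- **One step**: a projective line is inserted at the last node of the neck `k`, with the label `j₀`
at `1`; the label `j` of this node gets the coordinate `mu j` on the new line. -/
theorem stepM (hU : IsOpen U) (hne : U.Nonempty)
    (hφ : ∀ b ∈ U, AnalyticAt ℂ φ b) (Q : QS σ U φ h z g eK at' vL zL Uc u v t uf vf) (k : K)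
    {N' : Surf m} {M : Modif σ.F.S N'} {τ₀ τ₁ : (Fin m → ℂ) → ℂ} {a : N'.X → OnePoint ℂ}
    {af ai : N'.X → ℂ} (H : NodeMod M (Uc k) (u k) (v k) τ₀ τ₁ a af ai) (hF : M.Fib)
    (hτ : ∀ b ∈ U, τ₀ (φ b) = 0 ∧ τ₁ (φ b) = 0)
    (hZ : ∀ b ∈ σ.F.B, τ₀ b = 0 → τ₁ b = 0 → (∀ j, X₀.SmoothAt (P j b)) →
      ¬ ∀ i j, P i b = P j b → i = j)
    (mu : L → (Fin m → ℂ) → ℂ) (hmu : ∀ j ∈ at' k, ∀ b ∈ σ.F.B, AnalyticAt ℂ (mu j) b ∧
      uf k j b = τ₀ b * mu j b ∧ mu j b * vf k j b = τ₁ b)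
    {ε : ℝ} (hε : 0 < ε) (sm : Set L) (hsm : ∀ j ∈ sm, j ∈ at' k ∧ (∀ b ∈ σ.F.B, ‖mu j b‖ < ε) ∧
      ∀ b ∈ U, mu j (φ b) = 0)
    (hlg : ∀ j ∈ at' k, j ∉ sm → ∀ b ∈ σ.F.B, ε < ‖mu j b‖) :
    ∃ (s' : L → (Fin m → ℂ) → M.T.X) (hsec : ∀ j, IsSec M.T σ.F.B (s' j))
      (hrs : ∀ j, ∀ b ∈ σ.F.B, M.r (s' j b) = σ.s j b)
      (hZ' : ∀ x ∈ M.Z, (∀ j, X₀.SmoothAt (P j (σ.F.S.π x))) →
        ¬ ∀ i j, P i (σ.F.S.π x) = P j (σ.F.S.π x) → i = j),
      (∀ j ∈ at' k, ∀ b ∈ σ.F.B, ∃ y, s' j b = M.ιN y ∧ M.ρ y = σ.s j b ∧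
        a y = (mu j b : OnePoint ℂ)) ∧
      ∃ (g' : Option V → OnePoint ℂ → (Fin m' → ℂ) → M.T.X) (Uc' : K → Set M.T.X)
        (u' v' : K → M.T.X → ℂ) (t' : K → (Fin m → ℂ) → ℂ),
        QS (σ.mod M hF s' hsec hrs ∅ (fun _ hj => hj.elim) (fun _ hj => hj.elim) hZ') U φ
          (hI h (eK k)) (zI z (eK k)) g'
          (fun k' => if k' = k then none else some (eK k'))
          (fun k' => if k' = k then sm else at' k')
          (fun j => if j ∈ at' k then none else some (vL j))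
          (fun j => if j ∈ at' k then fun b => ((mu j (φ b) : ℂ) : OnePoint ℂ) else zL j)
          Uc' u' v' t' (fun k' => if k' = k then mu else uf k') vf := by
  -- labels
  obtain ⟨b₁, hb₁⟩ := id hne
  have hBne : φ b₁ ∈ σ.F.B := Q.mem b₁ hb₁
  have hdisjL : ∀ k' j, k' ≠ k → j ∈ at' k' → j ∉ at' k := by
    intro k' j hk hj hj'
    exact disjoint_left.1 (Q.disj k' k hk) (Q.inU k' j hj _ hBne).1 (Q.inU k j hj' _ hBne).1
  have hZU : ∀ x ∈ M.Z, x ∈ Uc k := by
    intro x hx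
    rw [H.Z_eq] at hx
    exact hx.1
  have hoffZ : ∀ j ∉ at' k, ∀ b ∈ σ.F.B, σ.s j b ∉ M.Z := fun j hj b hb hz =>
    Q.off k j hj b hb (hZU _ hz)
  -- the points of the new surface
  have exY : ∀ j ∈ at' k, ∀ b ∈ σ.F.B, ∃ y, M.ρ y = σ.s j b ∧ a y = (mu j b : OnePoint ℂ) := by
    intro j hj b hb
    obtain ⟨h1, h2, h3⟩ := Q.inU k j hj b hb
    obtain ⟨-, h4, h5⟩ := hmu j hj b hb
    have hπ : σ.F.S.π (σ.s j b) = b := (σ.sec j b hb).1
    refine H.ex _ h1 _ (fun c hc => ?_) fun c hc => ?_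
    · rw [← OnePoint.coe_injective hc, hπ, h2, h3]
      exact ⟨h4, h5⟩
    · have hc0 : c ≠ 0 := by
        rintro rfl
        rw [H395.inf_zero] at hc
        exact OnePoint.coe_ne_infty _ hc
      have hc1 : mu j b = c⁻¹ := by
        have : inf c = ((c⁻¹ : ℂ) : OnePoint ℂ) := if_neg hc0
        rw [this] at hc
        exact OnePoint.coe_injective hc
      rw [hπ, h2, h3, h4, ← h5, hc1]
      constructor
      · field_simp
      · field_simp
  obtain ⟨y₁⟩ : Nonempty N'.X := by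
    obtain ⟨x₁, hx₁⟩ : ∃ x, x ∈ M.Z := by
      refine ⟨g (h (eK k, true)) (z (eK k, true) b₁) b₁, ?_⟩
      rw [H.Z_eq]
      obtain ⟨h1, h2, h3⟩ := Q.node k b₁ hb₁
      exact ⟨h1, h2, h3, by rw [Q.norm.proj b₁ hb₁]; exact (hτ b₁ hb₁).1,
        by rw [Q.norm.proj b₁ hb₁]; exact (hτ b₁ hb₁).2⟩
    obtain ⟨y, -⟩ := (hF x₁ hx₁).nonempty
    exact ⟨y⟩
  have : Nonempty N'.X := ⟨y₁⟩
  set Y : L → (Fin m → ℂ) → N'.X := fun j b =>
    Classical.epsilon fun y => M.ρ y = σ.s j b ∧ a y = (mu j b : OnePoint ℂ) with hYd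
  have hY : ∀ j ∈ at' k, ∀ b ∈ σ.F.B, M.ρ (Y j b) = σ.s j b ∧ a (Y j b) = (mu j b : OnePoint ℂ) :=
    fun j hj b hb => Classical.epsilon_spec (exY j hj b hb)
  have hYsec : ∀ j ∈ at' k, IsSec N' σ.F.B (Y j) := by
    intro j hj b hb
    obtain ⟨hy1, hy2⟩ := hY j hj b hb
    obtain ⟨h1, h2, h3⟩ := Q.inU k j hj b hb
    have hcY : ContinuousAt (Y j) b := by
      rw [H.emb.continuousAt_iff]
      have h4 : ContinuousAt (fun b => (σ.s j b, (mu j b : OnePoint ℂ))) b :=
        (σ.sec j b hb).2.1.prodMk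
          (OnePoint.continuous_coe.continuousAt.comp (hmu j hj b hb).1.continuousAt)
      refine h4.congr ?_
      filter_upwards [σ.F.openB.mem_nhds hb] with b' hb'
      obtain ⟨h5, h6⟩ := hY j hj b' hb'
      exact (Prod.ext h5 h6).symm
    refine ⟨?_, hcY, fun f hf => ?_⟩
    · rw [← M.hπ, hy1]; exact (σ.sec j b hb).1
    · have hmem : Y j b ∈ {y | a y ≠ OnePoint.infty} := by
        change a _ ≠ _
        rw [hy2]; exact OnePoint.coe_ne_infty _
      obtain ⟨q, hq, hq'⟩ := (H.m0.hol _ hmem f).1 hf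
      have hE : ∀ b' ∈ σ.F.B, Emap N'.π af (fun y => v k (M.ρ y)) (Y j b') =
          (b', mu j b', v k (σ.s j b')) := by
        intro b' hb'
        obtain ⟨h5, h6⟩ := hY j hj b' hb'
        simp only [Emap]
        rw [← M.hπ, h5, (σ.sec j b' hb').1, H.af_eq _ _ h6]
      rw [hE b hb] at hq
      have h7 : AnalyticAt ℂ (fun b' => q (b', mu j b', v k (σ.s j b'))) b :=
        AnalyticAt.comp (g := q) (f := fun b' => (b', mu j b', v k (σ.s j b'))) hq
          (analyticAt_id.prod ((hmu j hj b hb).1.prod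
            ((σ.sec j b hb).2.2 (v k) ((Q.model k).hol_v h1))))
      refine h7.congr ?_
      filter_upwards [hcY.eventually hq', σ.F.openB.mem_nhds hb] with b' h8 h9
      rw [h8, Function.comp_apply, hE b' h9]
  -- the new positions
  set s' : L → (Fin m → ℂ) → M.T.X := fun j b =>
    if j ∈ at' k then M.ιN (Y j b) else hF.lift (σ.s j b) with hs'd
  have s'_in : ∀ j ∈ at' k, ∀ b, s' j b = M.ιN (Y j b) := fun j hj b => if_pos hj
  have s'_out : ∀ j ∉ at' k, ∀ b, s' j b = hF.lift (σ.s j b) := fun j hj b => if_neg hj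
  have hsec : ∀ j, IsSec M.T σ.F.B (s' j) := by
    intro j
    by_cases hj : j ∈ at' k
    · have h1 : s' j = M.ιN ∘ Y j := funext (s'_in j hj)
      rw [h1]
      exact M.secN (hYsec j hj)
    · have h1 : s' j = hF.lift ∘ σ.s j := funext (s'_out j hj)
      rw [h1]
      exact hF.sec (σ.sec j) (hoffZ j hj)
  have hrs : ∀ j, ∀ b ∈ σ.F.B, M.r (s' j b) = σ.s j b := by
    intro j b hb
    by_cases hj : j ∈ at' k
    · rw [s'_in j hj, M.rN]; exact (hY j hj b hb).1
    · rw [s'_out j hj, hF.r_lift]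
  have hZ' : ∀ x ∈ M.Z, (∀ j, X₀.SmoothAt (P j (σ.F.S.π x))) →
      ¬ ∀ i j, P i (σ.F.S.π x) = P j (σ.F.S.π x) → i = j := by
    intro x hx
    rw [H.Z_eq] at hx
    exact hZ _ (σ.F.mem x) hx.2.2.2.1 hx.2.2.2.2
  -- the normalization
  obtain ⟨g', hN', gnone, gsome, nearT, nearF⟩ :=
    NormS.insert H (Q.model k) Q.norm hU hne hφ (eK k) (Q.node k) hτ (Q.br k)
  -- the graph
  have hI3 : ∀ e s, e ≠ eK k → hI h (eK k) (some e, s) = some (h (e, s)) :=
    fun e s he => if_neg fun h => he h.1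
  have zI3 : ∀ e s, e ≠ eK k → zI z (eK k) (some e, s) = z (e, s) :=
    fun e s he => if_neg fun h => he h.1
  have hUev : ∀ (w : OnePoint ℂ) (b : Fin m' → ℂ), b ∈ U →
      ∀ᶠ p : OnePoint ℂ × (Fin m' → ℂ) in 𝓝 (w, b), p.2 ∈ U :=
    fun w b hb => continuousAt_snd.eventually (hU.mem_nhds hb)
  -- the new models
  have ιNinj : Function.Injective M.ιN := M.embN.injective
  have hπN : ∀ y, M.T.π (M.ιN y) = N'.π y := fun y => by rw [← M.πr, M.rN, M.hπ]
  set O : Set N'.X := {y | a y ≠ OnePoint.infty ∧ ‖af y‖ < ε} with hO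
  have hOo : IsOpen O := by
    rw [isOpen_iff_mem_nhds]
    rintro y ⟨hy1, hy2⟩
    have h1 : {y | a y ≠ OnePoint.infty} ∈ 𝓝 y := H.m0.isOpen.mem_nhds hy1
    have h2 : ContinuousAt (fun y => ‖af y‖) y := (H.m0.cont_u hy1).norm
    filter_upwards [h1, h2.eventually_lt_const hy2] with y' h3 h4
    exact ⟨h3, h4⟩
  have mO : IsModel N'.π N'.hol O af (fun y => v k (M.ρ y)) τ₁ := H.m0.mono hOo fun y hy => hy.1
  have mN : IsModel M.T.π M.T.hol (M.ιN '' O) (Function.extend M.ιN af 0)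
      (Function.extend M.ιN (fun y => v k (M.ρ y)) 0) τ₁ :=
    mO.image M.embN hπN (fun y f => M.holN y f)
  have eu : ∀ y, Function.extend M.ιN af 0 (M.ιN y) = af y := fun y => ιNinj.extend_apply _ _ _
  have ev : ∀ y, Function.extend M.ιN (fun y => v k (M.ρ y)) 0 (M.ιN y) = v k (M.ρ y) :=
    fun y => ιNinj.extend_apply _ _ _
  have hdZ : ∀ k', k' ≠ k → Disjoint (Uc k') M.Z := by
    intro k' hk
    exact (Q.disj k' k hk).mono_right hZU
  have hON : ∀ x ∈ M.ιN '' O, M.r x ∈ Uc k := by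
    rintro _ ⟨y, -, rfl⟩
    rw [M.rN]
    have := M.maps y
    rwa [H.N_eq] at this
  -- the lift of an old point
  have lift_g : ∀ v' w b, b ∈ U → g v' w b ∉ M.Z → hF.lift (g v' w b) = g' (some v') w b := by
    intro v' w b hb hz
    have h1 := gsome b hb v' w
    have h2 := hF.lift_eq (z := g' (some v') w b) (by rw [h1]; exact hz)
    rwa [h1] at h2
  refine ⟨s', hsec, hrs, hZ', fun j hj b hb => ⟨Y j b, s'_in j hj b, (hY j hj b hb).1,
    (hY j hj b hb).2⟩, g', fun k' => if k' = k then M.ιN '' O else M.r ⁻¹' Uc k',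
    fun k' => if k' = k then Function.extend M.ιN af 0 else fun x => u k' (M.r x),
    fun k' => if k' = k then Function.extend M.ιN (fun y => v k (M.ρ y)) 0 else
      fun x => v k' (M.r x),
    fun k' => if k' = k then τ₁ else t k', ?_⟩
  constructor
  case norm => exact hN'
  case mem => exact Q.mem
  case inj =>
    intro k₁ k₂ e
    by_cases h1 : k₁ = k <;> by_cases h2 : k₂ = k
    · rw [h1, h2]
    · simp [h1, h2] at e
    · simp [h1, h2] at e
    · simp only [h1, h2, if_false, Option.some.injEq] at e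
      exact Q.inj e
  case lab =>
    intro j hj b hb
    have hb' := Q.mem b hb
    change s' j (φ b) = _
    by_cases hjk : j ∈ at' k
    · simp only [if_pos hjk]
      rw [s'_in j hjk]
      obtain ⟨y, hy1, hy2, hy3⟩ := gnone b hb (mu j (φ b) : OnePoint ℂ)
      rw [hy1]
      obtain ⟨h3, h4⟩ := hY j hjk _ hb'
      refine congrArg M.ιN (H.ext ?_ ?_)
      · rw [h3, hy2]; exact Q.labn k j hjk b hb
      · rw [h4, hy3]
    · simp only [if_neg hjk]
      have h1 : ∀ k', j ∉ at' k' := by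
        intro k' h2
        by_cases hk : k' = k
        · exact hjk (hk ▸ h2)
        · have := hj k'
          rw [if_neg hk] at this
          exact this h2
      rw [s'_out j hjk, Q.lab j h1 b hb]
      exact lift_g _ _ _ hb (by rw [← Q.lab j h1 b hb]; exact hoffZ j hjk _ hb')
  case labn =>
    intro k' j hj b hb
    have hb' := Q.mem b hb
    change s' j (φ b) = _
    by_cases hk : k' = k
    · subst hk
      simp only [if_true] at hj ⊢
      obtain ⟨hjk, -, h0⟩ := hsm j hj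
      rw [s'_in j hjk]
      obtain ⟨y, hy1, hy2, hy3⟩ := gnone b hb ((0 : ℂ) : OnePoint ℂ)
      change _ = g' none ((0 : ℂ) : OnePoint ℂ) b
      rw [hy1]
      obtain ⟨h3, h4⟩ := hY j hjk _ hb'
      refine congrArg M.ιN (H.ext ?_ ?_)
      · rw [h3, hy2]; exact Q.labn k' j hjk b hb
      · rw [h4, hy3, h0 b hb]
    · simp only [if_neg hk] at hj ⊢
      have he : eK k' ≠ eK k := fun e => hk (Q.inj e)
      rw [hI3 _ _ he, zI3 _ _ he, s'_out j (hdisjL k' j hk hj), Q.labn k' j hj b hb]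
      refine lift_g _ _ _ hb ?_
      exact fun hz => disjoint_left.1 (Q.disj k' k hk) (Q.node k' b hb).1 (hZU _ hz)
  case model =>
    intro k'
    by_cases hk : k' = k
    · subst hk
      simp only [if_true]
      exact mN
    · simp only [if_neg hk]
      exact model_off M (Q.model k') (hdZ k' hk)
  case disj =>
    intro k₁ k₂ hne'
    refine Set.disjoint_left.2 ?_
    intro x hx1 hx2
    by_cases h1 : k₁ = k <;> by_cases h2 : k₂ = k
    · exact hne' (h1.trans h2.symm)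
    · simp only [if_pos h1] at hx1
      simp only [if_neg h2] at hx2
      exact disjoint_left.1 (Q.disj k₂ k h2) hx2 (hON x hx1)
    · simp only [if_neg h1] at hx1
      simp only [if_pos h2] at hx2
      exact disjoint_left.1 (Q.disj k₁ k h1) hx1 (hON x hx2)
    · simp only [if_neg h1] at hx1
      simp only [if_neg h2] at hx2
      exact disjoint_left.1 (Q.disj k₁ k₂ hne') hx1 hx2
  case node =>
    intro k' b hb
    by_cases hk : k' = k
    · subst hk
      simp only [if_true]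
      obtain ⟨y, hy1, hy2, hy3⟩ := gnone b hb ((0 : ℂ) : OnePoint ℂ)
      have e0 : g' (hI h (eK k') (none, true)) (zI z (eK k') (none, true) b) b = M.ιN y := hy1
      have ha : af y = 0 := H.af_eq _ _ hy3
      have hyO : y ∈ O := by
        refine ⟨?_, ?_⟩
        · rw [hy3]; exact OnePoint.coe_ne_infty _
        · rw [ha, norm_zero]; exact hε
      have hv0 : v k' (M.ρ y) = 0 := by rw [hy2]; exact (Q.node k' b hb).2.2
      rw [e0]
      exact ⟨mem_image_of_mem _ hyO, (eu y).trans ha, (ev y).trans hv0⟩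
    · simp only [if_neg hk]
      have he : eK k' ≠ eK k := fun e => hk (Q.inj e)
      rw [hI3 _ _ he, zI3 _ _ he]
      have e2 := Q.node k' b hb
      rw [← gsome b hb] at e2
      exact e2
  case br =>
    intro k' b₀ hb₀
    by_cases hk : k' = k
    · subst hk
      simp only [if_true]
      constructor
      · filter_upwards [hUev _ b₀ hb₀] with p hp
        obtain ⟨y, hy1, hy2, hy3⟩ := gnone p.2 hp p.1
        have e0 : g' (hI h (eK k') (none, true)) p.1 p.2 = M.ιN y := hy1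
        have hv0 : v k' (M.ρ y) = 0 := by rw [hy2]; exact (Q.node k' p.2 hp).2.2
        rw [e0]
        exact (ev y).trans hv0
      · have h1 := nearF b₀ hb₀
        filter_upwards [h1] with p hp
        obtain ⟨y, hy1, hy2⟩ := hp
        have e0 : g' (hI h (eK k') (none, false)) p.1 p.2 = M.ιN y := hy1
        rw [e0]
        exact (eu y).trans (H.af_eq _ _ hy2)
    · simp only [if_neg hk]
      have he : eK k' ≠ eK k := fun e => hk (Q.inj e)
      rw [hI3 _ _ he, zI3 _ _ he, hI3 _ _ he, zI3 _ _ he]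
      obtain ⟨h1, h2⟩ := Q.br k' b₀ hb₀
      constructor
      · filter_upwards [h1, hUev _ b₀ hb₀] with p hp hp2
        rw [gsome p.2 hp2]; exact hp
      · filter_upwards [h2, hUev _ b₀ hb₀] with p hp hp2
        rw [gsome p.2 hp2]; exact hp
  case inU =>
    intro k' j hj b hb
    change s' j b ∈ _ ∧ _
    have hb : b ∈ σ.F.B := hb
    by_cases hk : k' = k
    · subst hk
      simp only [if_true] at hj ⊢
      obtain ⟨hjk, h1, -⟩ := hsm j hj
      obtain ⟨h3, h4⟩ := hY j hjk b hb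
      change s' j b ∈ _ ∧ Function.extend M.ιN af 0 (s' j b) = _ ∧
        Function.extend M.ιN (fun y => v k' (M.ρ y)) 0 (s' j b) = _
      have ha : af (Y j b) = mu j b := H.af_eq _ _ h4
      have hyO : Y j b ∈ O := by
        refine ⟨?_, ?_⟩
        · rw [h4]; exact OnePoint.coe_ne_infty _
        · rw [ha]; exact h1 b hb
      have hv0 : v k' (M.ρ (Y j b)) = vf k' j b := by rw [h3]; exact (Q.inU k' j hjk b hb).2.2
      rw [s'_in j hjk]
      exact ⟨mem_image_of_mem _ hyO, (eu _).trans ha, (ev _).trans hv0⟩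
    · simp only [if_neg hk] at hj ⊢
      have e2 := Q.inU k' j hj b hb
      rw [← hrs j b hb] at e2
      exact e2
  case off =>
    intro k' j hj b hb
    change s' j b ∉ _
    have hb : b ∈ σ.F.B := hb
    by_cases hk : k' = k
    · subst hk
      simp only [if_true] at hj ⊢
      intro hx
      by_cases hjk : j ∈ at' k'
      · rw [s'_in j hjk] at hx
        obtain ⟨y, ⟨-, hy⟩, e⟩ := hx
        rw [ιNinj e, H.af_eq _ _ (hY j hjk b hb).2] at hy
        exact absurd hy (not_lt.2 (hlg j hjk hj b hb).le)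
      · have h1 := hON _ hx
        rw [hrs j b hb] at h1
        exact Q.off k' j hjk b hb h1
    · simp only [if_neg hk] at hj ⊢
      have e2 := Q.off k' j hj b hb
      rw [← hrs j b hb] at e2
      exact e2

end QS

end Vale.Agent.P273.H591

end
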